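import Crest.Agent.X212.Hel40.Ang
import Crest.Agent.X212.Box46.Trk
import Crest.Agent.X212.Hl33.Foot
import Crest.Agent.X212.Hd34.Hd
import Crest.Agent.X212.Hel40.Bas
import Crest.Agent.X212.Lsf39.Main
import Crest.Agent.X212.Hel40.Defs
import Crest.Agent.X212.Tw39.Tw
import Crest.Agent.X212.Orx52.Sw
import Crest.Agent.X212.Int54.Stokes
import Crest.Agent.X212.Hel40.Stp
import Crest.Agent.X212.Hd34.Del
import Crest.Agent.X212.Box46.Box
import Crest.Agent.X212.Hl33.Conn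
import Crest.Agent.X212.Hl33.Trans
import Crest.Agent.X212.Rgl52.Main

-- ▼ part X212/Hel40/Cov
section

/-!
# X212/Hel40/Cov (helper40): bands in the cyclic cover of a surface
-/

set_option autoImplicit false
set_option linter.unusedSectionVars false

open Set Filter Topology Function Real

noncomputable section

namespace Crest.Agent.X212.Hel40

/-- first exit from an open set -/
theorem first_exit {X : Type*} [TopologicalSpace X] {γ : ℝ → X} (hγ : Continuous γ) {N : Set X}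
    (hN : IsOpen N) (h0 : γ 0 ∈ N) {T : ℝ} (hT : 0 ≤ T) (h1 : γ T ∉ N) :
    ∃ t ∈ Ioc 0 T, γ t ∉ N ∧ (∀ s ∈ Ico 0 t, γ s ∈ N) ∧ ∀ s ∈ Icc 0 t, γ s ∈ closure N := by
  have hc : IsClosed (Icc 0 T ∩ γ ⁻¹' Nᶜ) := isClosed_Icc.inter (hN.isClosed_compl.preimage hγ)
  have hb : BddBelow (Icc 0 T ∩ γ ⁻¹' Nᶜ) := ⟨0, fun _ h => h.1.1⟩
  have hm := hc.csInf_mem ⟨T, ⟨hT, le_rfl⟩, h1⟩ hb
  have hp : 0 < sInf (Icc 0 T ∩ γ ⁻¹' Nᶜ) := hm.1.1.lt_of_ne fun e => hm.2 (e ▸ h0)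
  have h2 : ∀ s ∈ Ico 0 (sInf (Icc 0 T ∩ γ ⁻¹' Nᶜ)), γ s ∈ N := fun s hs => by
    by_contra hn
    exact hs.2.not_ge (csInf_le hb ⟨⟨hs.1, hs.2.le.trans hm.1.2⟩, hn⟩)
  refine ⟨_, ⟨hp, hm.1.2⟩, hm.2, h2, fun s hs => ?_⟩
  rw [← closure_Ico hp.ne] at hs
  exact map_mem_closure hγ hs h2

theorem xo_conn {δ : ℝ} (hδ : 0 < δ) : IsPreconnected (Xo δ) := by
  have c1 : ∀ n : ℤ, IsPreconnected {z : ℂ | |z.re - n| < δ} := fun n => by
    simp only [abs_lt, lt_sub_iff_add_lt, sub_lt_iff_lt_add]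
    exact ((convex_halfSpace_re_gt _).inter (convex_halfSpace_re_lt _)).isPreconnected
  have c2 : ∀ n : ℤ, IsPreconnected {z : ℂ | |z.im - n| < δ} := fun n => by
    simp only [abs_lt, lt_sub_iff_add_lt, sub_lt_iff_lt_add]
    exact ((convex_halfSpace_im_gt _).inter (convex_halfSpace_im_lt _)).isPreconnected
  have c3 : ∀ m n : ℤ, IsPreconnected ({z : ℂ | |z.re - m| < δ} ∪ {z : ℂ | |z.im - n| < δ}) :=
    fun m n => (c1 m).union ⟨m, n⟩ (by simpa using hδ) (by simpa using hδ) (c2 n)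
  refine isPreconnected_of_forall 0 ?_
  rintro z (⟨n, h⟩ | ⟨n, h⟩)
  · exact ⟨_, fun w hw => hw.imp (⟨n, ·⟩) (⟨0, ·⟩), .inr (by simpa using hδ), .inl h, c3 n 0⟩
  · exact ⟨_, fun w hw => hw.imp (⟨0, ·⟩) (⟨n, ·⟩), .inl (by simpa using hδ), .inr h, c3 0 n⟩

variable {X : Type*} [TopologicalSpace X] {u : X → Circle} {V : Set X} {D D' : ℝ} {x y z : X}

/-- a band in the cover over `V` -/
def Bd (u : X → Circle) (V : Set X) (lo hi : ℝ) : Set (X × ℝ) :=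
  {q | q.1 ∈ V ∧ u q.1 = Circle.exp q.2 ∧ lo ≤ q.2 ∧ q.2 ≤ hi}

theorem Bd.mono {lo hi lo' hi' : ℝ} (h : lo' ≤ lo) (h' : hi ≤ hi') : Bd u V lo hi ⊆ Bd u V lo' hi' :=
  fun _ a => ⟨a.1, a.2.1, h.trans a.2.2.1, a.2.2.2.trans h'⟩

/-- joined in a set -/
def Jd {Z : Type*} [TopologicalSpace Z] (B : Set Z) (p q : Z) : Prop :=
  ∃ A ⊆ B, IsPreconnected A ∧ p ∈ A ∧ q ∈ A

theorem Jd.mono {Z : Type*} [TopologicalSpace Z] {B B' : Set Z} {p q : Z} (h : Jd B p q)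
    (hB : B ⊆ B') : Jd B' p q := let ⟨A, a, b⟩ := h; ⟨A, a.trans hB, b⟩

theorem Jd.trans {Z : Type*} [TopologicalSpace Z] {B : Set Z} {p q r : Z} (h : Jd B p q)
    (h' : Jd B q r) : Jd B p r :=
  let ⟨_, a1, a2, a3, a4⟩ := h
  let ⟨_, b1, b2, b3, b4⟩ := h'
  ⟨_, union_subset a1 b1, a2.union q a4 b3 b2, .inl a3, .inr b4⟩

theorem Jd.right {Z : Type*} [TopologicalSpace Z] {B : Set Z} {p q : Z} (h : Jd B p q) : q ∈ B :=
  let ⟨_, a1, _, _, a4⟩ := h; a1 a4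

/-- every lift of `x` is joined to a lift of `y` in a band of width `D` -/
def Rl (u : X → Circle) (V : Set X) (D : ℝ) (x y : X) : Prop :=
  ∀ r, u x = Circle.exp r → ∃ r', Jd (Bd u V (r - D) (r + D)) (x, r) (y, r')

theorem Rl.mono (h : Rl u V D x y) (hD : D ≤ D') : Rl u V D' x y := fun r hr =>
  let ⟨r', a⟩ := h r hr; ⟨r', a.mono (Bd.mono (by linarith) (by linarith))⟩

theorem Rl.trans (h : Rl u V D x y) (h' : Rl u V D' y z) : Rl u V (D + D') x z := fun r hr => by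
  obtain ⟨r', a⟩ := h r hr
  obtain ⟨-, a1, a2, a3⟩ := a.right
  obtain ⟨r'', c⟩ := h' r' a1
  obtain ⟨-, -, c2, c3⟩ := c.right
  dsimp only at a2 a3 c2 c3
  exact ⟨r'', (a.mono (Bd.mono (by linarith) (by linarith))).trans
    (c.mono (Bd.mono (by linarith) (by linarith)))⟩

theorem rl_loc [LocallyConnectedSpace X] (hu : Continuous u) (hV : IsOpen V) (hx : x ∈ V) :
    ∃ N ∈ 𝓝 x, ∀ y ∈ N, ∀ z ∈ N, Rl u V (2 * π) y z := by
  have h1 : V ∩ {y | ((u y / u x : Circle) : ℂ) ≠ -1} ∈ 𝓝 x :=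
    (hV.inter (isOpen_ne_fun (continuous_subtype_val.comp (hu.div' continuous_const))
      continuous_const)).mem_nhds ⟨hx, show ((u x / u x : Circle) : ℂ) ≠ -1 by simp; norm_num⟩
  obtain ⟨N, hN, hc, hs⟩ := locallyConnectedSpace_iff_connected_subsets.1 inferInstance x _ h1
  have hl : ContinuousOn (fun y => ar (u y / u x)) N := fun y hy =>
    ((continuousAt_ar (hs hy).2).comp (f := fun y => u y / u x)
      (hu.div' continuous_const).continuousAt).continuousWithinAt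
  refine ⟨N, hN, fun y hy z hz r hr => ⟨r + (ar (u z / u x) - ar (u y / u x)),
    (fun w => (w, r + (ar (u w / u x) - ar (u y / u x)))) '' N, ?_,
    hc.image _ (continuousOn_id.prodMk (continuousOn_const.add (hl.sub continuousOn_const))),
    ⟨y, hy, by simp⟩, z, hz, rfl⟩⟩
  rintro _ ⟨w, hw, rfl⟩
  have h2 := abs_le.1 (abs_ar_le (u w / u x))
  have h3 := abs_le.1 (abs_ar_le (u y / u x))
  refine ⟨(hs hw).1, ?_, by dsimp only; linarith, by dsimp only; linarith⟩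
  simp only [Circle.exp_add, Circle.exp_sub, exp_ar, ← hr]
  simp

theorem rl_cpt [LocallyConnectedSpace X] (hu : Continuous u) (hV : IsOpen V) (cV : IsPreconnected V)
    (hy : y ∈ V) {C : Set X} (hC : IsCompact C) (hCV : C ⊆ V) : ∃ D, ∀ x ∈ C, Rl u V D x y := by
  have h1 : ∀ x ∈ V, ∃ D, Rl u V D x y := fun x hx =>
    cV.induction₂' (fun x y => ∃ D, Rl u V D x y) (fun x hx => by
      obtain ⟨N, hN, h⟩ := rl_loc hu hV hx
      filter_upwards [mem_nhdsWithin_of_mem_nhds hN] with z hz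
      exact ⟨⟨_, h x (mem_of_mem_nhds hN) z hz⟩, _, h z hz x (mem_of_mem_nhds hN)⟩)
      (fun _ _ _ _ _ _ ⟨_, a⟩ ⟨_, b⟩ => ⟨_, a.trans b⟩) hx hy
  refine hC.induction_on (p := fun s => ∃ D, ∀ x ∈ s, Rl u V D x y) ⟨0, by simp⟩
    (fun s t hst ⟨D, h⟩ => ⟨D, fun x hx => h x (hst hx)⟩)
    (fun s t ⟨D, h⟩ ⟨D', h'⟩ => ⟨max D D', fun x hx => hx.elim
      (fun a => (h x a).mono (le_max_left _ _)) fun a => (h' x a).mono (le_max_right _ _)⟩)
    fun x hx => ?_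
  obtain ⟨N, hN, h⟩ := rl_loc hu hV (hCV hx)
  obtain ⟨D, hD⟩ := h1 x (hCV hx)
  exact ⟨N, mem_nhdsWithin_of_mem_nhds hN, _, fun z hz => (h z hz x (mem_of_mem_nhds hN)).trans hD⟩

theorem helix {a : ℝ → X} (h : Dual u a) (hV : ∀ t, a t ∈ V) : ∃ D, ∀ r r', u (a 0) = Circle.exp r →
    u (a 0) = Circle.exp r' → Jd (Bd u V (min r r' - D) (max r r' + D)) (a 0, r) (a 0, r') := by
  obtain ⟨hc, hp, l, lc, le, lp⟩ := h
  have p1 : Periodic (fun t => l t - 2 * π * t) 1 := fun t => by simp only [lp]; ring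
  obtain ⟨D, hD⟩ := (p1.isBounded_of_continuous one_ne_zero (by fun_prop)).exists_norm_le
  have h1 : ∀ t, |l t - 2 * π * t| ≤ D := fun t => hD _ ⟨t, rfl⟩
  have h2 : ∀ r, u (a 0) = Circle.exp r → ∃ n : ℤ, (a n, l n) = (a 0, r) := fun r hr => by
    obtain ⟨n, hn⟩ := Circle.exp_eq_exp.1 (hr.symm.trans (le 0))
    have e1 := (show Periodic a 1 from hp).int_mul_eq n
    have e2 := p1.int_mul_eq n
    simp only [mul_one, mul_zero] at e1 e2
    exact ⟨n, Prod.ext e1 (by dsimp only; linarith)⟩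
  refine ⟨2 * D, fun r r' hr hr' => ?_⟩
  obtain ⟨n, hn⟩ := h2 r hr
  obtain ⟨n', hn'⟩ := h2 r' hr'
  refine ⟨(fun t => (a t, l t)) '' uIcc (n : ℝ) n', ?_,
    isPreconnected_uIcc.image _ (hc.prodMk lc).continuousOn, ⟨_, left_mem_uIcc, hn⟩,
    _, right_mem_uIcc, hn'⟩
  rintro _ ⟨t, ht, rfl⟩
  obtain rfl : l n = r := congrArg Prod.snd hn
  obtain rfl : l n' = r' := congrArg Prod.snd hn'
  have k1 := abs_le.1 (h1 t)
  have k2 := abs_le.1 (h1 n)
  have k3 := abs_le.1 (h1 n')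
  have m1 := min_le_left (l n) (l n')
  have m2 := min_le_right (l n) (l n')
  have m3 := le_max_left (l n) (l n')
  have m4 := le_max_right (l n) (l n')
  have := pi_pos
  refine ⟨hV t, le t, ?_, ?_⟩ <;> rcases mem_uIcc.1 ht with k | k <;> dsimp only <;> nlinarith

/-- **bands**: lifts of points of a compact set are joined to the base point in every wide band -/
theorem band_conn [LocallyConnectedSpace X] (hu : Continuous u) (hV : IsOpen V)
    (cV : IsPreconnected V) {a : ℝ → X} (h : Dual u a) (ha : ∀ t, a t ∈ V) {C : Set X}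
    (hC : IsCompact C) (hCV : C ⊆ V) : ∃ D, ∀ lo hi r₀, u (a 0) = Circle.exp r₀ → lo + D ≤ r₀ →
      r₀ + D ≤ hi → ∀ x ∈ C, ∀ r, u x = Circle.exp r → lo + D ≤ r → r + D ≤ hi →
      Jd (Bd u V lo hi) (x, r) (a 0, r₀) := by
  obtain ⟨D, hD⟩ := rl_cpt hu hV cV (ha 0) hC hCV
  obtain ⟨D', hD'⟩ := helix h ha
  refine ⟨|D| + |D'|, fun lo hi r₀ h0 h1 h2 x hx r hr h3 h4 => ?_⟩
  obtain ⟨r', a1⟩ := hD x hx r hr
  obtain ⟨-, a2, a3, a4⟩ := a1.right
  dsimp only at a2 a3 a4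
  have := le_abs_self D
  have := le_abs_self D'
  have := abs_nonneg D
  have := abs_nonneg D'
  refine (a1.mono (Bd.mono (by linarith) (by linarith))).trans ((hD' r' r₀ a2 h0).mono (Bd.mono ?_ ?_))
  · rcases min_choice r' r₀ with e | e <;> rw [e] <;> linarith
  · rcases max_choice r' r₀ with e | e <;> rw [e] <;> linarith

end Crest.Agent.X212.Hel40
end
end

-- ▼ part X212/Hel40/Zs
section

/-!
# X212/Hel40/Zs (helper40): orbits in a box, projection of the cyclic cover to the middle surface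
-/

set_option autoImplicit false
set_option linter.unusedSectionVars false

open Set Filter Topology Function Real
open scoped ContDiff Manifold
open Crest.Agent.X212.Dr59 Crest.Agent.X212.Cyl58
open Crest.Agent.X212.Sep15 (EE IR CM Box slab px Rg)
open Crest.Agent.X212.Bb31 (Fm)
open Crest.Agent.X212.Flo26 (SmV fl)

noncomputable section

namespace Crest.Agent.X212.Hel40

variable {Y : CM 3} {R : CM 2} {o : Fm 3 Y} {v : Vf Y} {Φ ψ : Y → Circle} {M K G : Set Y} {σ : ℝ}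
  {oR : Fm 2 R} {b : R × ℝ → Y}

/-! ### the box -/

theorem Bx.ang' (hX : Bx o v Φ oR b) (x : R) (s : ℝ) : Φ (b (x, s)) = Circle.exp (bt s) :=
  (hX.ang _).trans (cay_eq s)

theorem Bx.notMem (hX : Bx o v Φ oR b) (hB : Bas o v Φ M) (p : R × ℝ) : b p ∉ M := fun h =>
  cay_ne_one _ ((hX.ang p).symm.trans (hB.one _ h))

theorem Bx.of_ang (hX : Bx o v Φ oR b) {y : Y} {a : ℝ} (ha : Φ y = Circle.exp a)
    (h1 : -(2 * π) < a) (h2 : a < 0) : ∃ x s, y = b (x, s) ∧ bt s = a := by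
  obtain ⟨p, rfl⟩ : y ∈ range b := by
    rw [hX.rg]
    exact fun e => exp_ne_one h2.ne (abs_lt.2 ⟨h1, by linarith⟩) (ha.symm.trans e)
  have := bt_mem p.2
  exact ⟨p.1, p.2, rfl, exp_inj ((hX.ang' _ _).symm.trans ha) (abs_lt.2 ⟨by linarith, by linarith⟩)⟩

theorem box_fl (hB : Bas o v Φ M) (hX : Bx o v Φ oR b) {x : R} {s s' T : ℝ}
    (h : bt s + ag Φ v (b (x, s)) T = bt s') : ∀ t ∈ uIcc 0 T, ∃ s'' ∈ uIcc s s',
      fl v t (b (x, s)) = b (x, s'') ∧ bt s + ag Φ v (b (x, s)) t = bt s'' := by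
  have hv := hB.smv
  have h1 : ∀ t ∈ uIcc 0 T, ∃ x', ∃ s'' ∈ uIcc s s', fl v t (b (x, s)) = b (x', s'') ∧
      bt s + ag Φ v (b (x, s)) t = bt s'' := fun t ht => by
    have h2 := (ag_mono hv hB.smΦ hB.nn (b (x, s))).mapsTo_uIcc ht
    rw [ag_zero, mem_uIcc] at h2
    have := bt_mem s
    have := bt_mem s'
    obtain ⟨x', s'', e1, e2⟩ := hX.of_ang (phi_fl' hv hB.smΦ (hX.ang' x s) t)
      (by rcases h2 with k | k <;> linarith [k.1]) (by rcases h2 with k | k <;> linarith [k.2])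
    refine ⟨x', s'', ?_, e1, e2.symm⟩
    have m : ∀ {a c : ℝ}, bt a ≤ bt c → a ≤ c := bt_mono.le_iff_le.1
    exact mem_uIcc.2 (h2.imp (fun k => ⟨m (by linarith [k.1]), m (by linarith [k.2])⟩)
      fun k => ⟨m (by linarith [k.1]), m (by linarith [k.2])⟩)
  intro t ht
  obtain ⟨x', s'', a1, a2, a3⟩ := h1 t ht
  have c : ContMDiff 𝓘(ℝ, ℝ) (𝓡 3) ∞ fun t => fl v t (b (x, s)) :=
    ((cpl hv).contMDiff hv).comp (contMDiff_id.prodMk contMDiff_const)
  obtain rfl : x = x' := Box46.foot hX.box hX.vert (γ := fun t => fl v t (b (x, s)))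
    (S := {t | Φ (fl v t (b (x, s))) ≠ 1})
    (isOpen_ne_fun (hB.smΦ.continuous.comp c.continuous) continuous_const)
    (fun r hr => ⟨c r, by rw [hX.rg]; exact hr, 1, by
      rw [mf, (Flo26.hasMFDerivAt_fl hv (cpl hv (r, _))).mfderiv]; rfl⟩)
    (s := 0) (t := t) (fun r hr => by
      obtain ⟨x', s'', -, a2, -⟩ := h1 r (uIcc_subset_uIcc_left ht hr)
      show Φ (fl v r _) ≠ 1
      rw [a2, hX.ang]; exact cay_ne_one _) (p := (x, s)) (Flo26.fl_zero hv _) (q := (x', s'')) a2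
  exact ⟨s'', a1, a2, a3⟩

theorem box_go (hB : Bas o v Φ M) (hX : Bx o v Φ oR b) (x : R) (s s' : ℝ) :
    ∃ T, fl v T (b (x, s)) = b (x, s') ∧ bt s + ag Φ v (b (x, s)) T = bt s' ∧
      ∀ t ∈ uIcc 0 T, ∃ s'' ∈ uIcc s s', fl v t (b (x, s)) = b (x, s'') := by
  have := bt_mem s
  have := bt_mem s'
  obtain ⟨T, h⟩ : ∃ T, bt s + ag Φ v (b (x, s)) T = bt s' := by
    rcases le_total (bt s) (bt s') with h | h
    · obtain ⟨t, -, e⟩ := hB.reach (.inl rfl) (hX.ang' x s) (c := bt s') (by linarith) fun z hz =>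
        exp_ne_one (by linarith [hz.2]) (abs_lt.2 ⟨by linarith [hz.1], by linarith [hz.2]⟩)
      exact ⟨_, by linarith⟩
    · obtain ⟨t, -, e⟩ := hB.reach (.inr rfl) (hX.ang' x s) (c := -bt s') (by linarith) fun z hz =>
        exp_ne_one (by linarith [hz.1]) (abs_lt.2 ⟨by linarith [hz.2], by linarith [hz.1]⟩)
      exact ⟨_, by linarith⟩
  obtain ⟨s'', -, a2, a3⟩ := box_fl hB hX h T right_mem_uIcc
  obtain rfl := bt_mono.injective (a3.symm.trans h)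
  exact ⟨T, a2, h, fun t ht => let ⟨r, c1, c2, _⟩ := box_fl hB hX h t ht; ⟨r, c1, c2⟩⟩

theorem Bx.ar_pos (hX : Bx o v Φ oR b) (x : R) {s : ℝ} (h : 0 < s) : ar (Φ (b (x, s))) = bt s := by
  rw [hX.ang', ar_exp (abs_lt.2 ⟨bt_gt h, by linarith [(bt_mem s).2, pi_pos]⟩)]

theorem Bx.ar_neg (hX : Bx o v Φ oR b) (x : R) {s : ℝ} (h : s < 0) :
    ar (Φ (b (x, s))) = -bt (-s) := by
  have := bt_gt (neg_pos.2 h)
  have := bt_mem (-s)
  rw [hX.ang', ← Circle.exp_add_two_pi, show bt s + 2 * π = -bt (-s) by rw [bt_neg]; ring,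
    ar_exp (abs_lt.2 ⟨by linarith [pi_pos], by linarith⟩)]

theorem Bx.not_slab (hX : Bx o v Φ oR b) {c : ℝ} (hc : 0 < c) {y : Y} :
    y ∉ slab b (Ioo (-c) c) ↔ |ar (Φ y)| ≤ -bt c := by
  have h0 := (bt_mem c).2
  refine ⟨fun h => ?_, ?_⟩
  · by_cases e : Φ y = 1
    · rw [e, ← Circle.exp_zero, ar_exp (by simpa using pi_pos), abs_zero]; linarith
    obtain ⟨⟨x, s⟩, rfl⟩ : y ∈ range b := by rw [hX.rg]; exact e
    rcases le_or_gt c s with h1 | h1
    · rw [hX.ar_pos x (hc.trans_le h1), abs_of_neg (bt_mem s).2, neg_le_neg_iff]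
      exact bt_mono.monotone h1
    · have h2 : s ≤ -c := not_lt.1 fun h2 => h ⟨_, ⟨trivial, h2, h1⟩, rfl⟩
      rw [hX.ar_neg x (by linarith), abs_neg, abs_of_neg (bt_mem _).2, neg_le_neg_iff]
      exact bt_mono.monotone (by linarith)
  · rintro h ⟨p, hp, rfl⟩
    exact (le_abs_of_cay hc ((hX.ang p).symm.trans (exp_ar _).symm) h).not_gt (abs_lt.2 hp.2)

theorem Bx.cpt (hX : Bx o v Φ oR b) (a c : ℝ) : IsCompact (slab b (Icc a c)) :=
  (isCompact_univ.prod isCompact_Icc).image hX.box.contMDiff.continuous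

/-! ### estimates -/

theorem ag_eq_zero (hv : SmV (𝓡 3) v) (hψ : SC ψ) {y : Y} {T : ℝ}
    (h : ∀ t ∈ uIcc 0 T, ψ (fl v t y) = ψ y) : ag ψ v y T = 0 :=
  log_eq (g := fun _ => 0) (continuous_ag' hv hψ y).continuousOn continuousOn_const (fun t ht => by
    have := h t ht
    rwa [phi_fl hv hψ, mul_eq_left, ← Circle.exp_zero] at this) (ag_zero y)

theorem gain (hB : Bas o v Φ M) (hψ : SC ψ) {C : ℝ} (hC : ∀ y, 0 ≤ rt ψ v y + C * rt Φ v y)
    (hσ : σ = 1 ∨ σ = -1) {y : Y} {T : ℝ} (h : 0 < σ * ag Φ v y T) :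
    0 ≤ σ * ag ψ v y T + C * (σ * ag Φ v y T) := by
  have e : T = σ * (σ * T) := by rcases hσ with rfl | rfl <;> ring
  rw [e] at h ⊢
  refine sg_mono hσ hB.smv hB.smΦ (not_lt.1 fun hn => ?_) hψ fun _ _ => hC _
  have := hB.mono hσ y hn.le
  simp only [mul_zero, ag_zero] at this
  linarith

theorem crs_ag (hB : Bas o v Φ M) {X : Type*} {y : X → Y} {θ : X → ℝ} {p : X} {t : ℝ}
    (h : θ p + ag Φ v (y p) t = 0) (hM : fl v t (y p) ∉ M) :
    Crs (fun p t => θ p + ag Φ v (y p) t) p t :=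
  have h1 := ag_strict hB.smv hB.smΦ hB.nn (hB.pos _ hM)
  ⟨fun s hs => by linarith [h1.1 s hs], fun s hs => by linarith [h1.2 s hs]⟩

theorem ag_contOn (hv : SmV (𝓡 3) v) (h : SC Φ) {X : Type*} [TopologicalSpace X] {y : X → Y}
    {t : X → ℝ} {C : Set X} (hy : ContinuousOn y C) (ht : ContinuousOn t C) :
    ContinuousOn (fun x => ag Φ v (y x) (t x)) C :=
  Continuous.comp_continuousOn (g := fun p : Y × ℝ => ag Φ v p.1 p.2) (f := fun x => (y x, t x))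
    (continuous_ag hv h) (hy.prodMk ht)

theorem time_cont (hB : Bas o v Φ M) {X : Type*} [TopologicalSpace X] {y : X → Y} {θ τ : X → ℝ}
    {C : Set X} (hy : ContinuousOn y C) (hθ : ContinuousOn θ C)
    (h : ∀ p ∈ C, θ p + ag Φ v (y p) (τ p) = 0 ∧ fl v (τ p) (y p) ∉ M) : ContinuousOn τ C :=
  continuousOn_crs (F := fun p t => θ p + ag Φ v (y p) t)
    (fun _ => hθ.add (ag_contOn hB.smv hB.smΦ hy continuousOn_const))
    fun p hp => crs_ag hB (h p hp).1 (h p hp).2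

/-- the winding of `ψ` up to a fixed level is bounded on compact sets -/
theorem bnd (hB : Bas o v Φ M) (hψ : SC ψ) {X : Type*} [TopologicalSpace X] {y : X → Y} {θ : X → ℝ}
    {C : Set X} (hC : IsCompact C) (hy : ContinuousOn y C) (hθ : ContinuousOn θ C) {P : X → Y → Prop}
    (h : ∀ p ∈ C, ∃ T, θ p + ag Φ v (y p) T = 0 ∧ fl v T (y p) ∉ M ∧ P p (fl v T (y p))) :
    ∃ D, ∀ p ∈ C, ∃ T, θ p + ag Φ v (y p) T = 0 ∧ P p (fl v T (y p)) ∧ |ag ψ v (y p) T| ≤ D := by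
  choose! τ h1 h2 h3 using h
  obtain ⟨D, hD⟩ := hC.exists_bound_of_continuousOn
    (ag_contOn hB.smv hψ hy (time_cont hB hy hθ fun p hp => ⟨h1 p hp, h2 p hp⟩))
  exact ⟨D, fun p hp => ⟨τ p, h1 p hp, h3 p hp, hD p hp⟩⟩

/-! ### the projection -/

/-- lifted points whose orbit meets the level `0` in `G` -/
def Zs (Φ : Y → Circle) (v : Vf Y) (G : Set Y) : Set (Y × ℝ) :=
  {q | ∃ t, q.2 + ag Φ v q.1 t = 0 ∧ fl v t q.1 ∈ G}

theorem Zs.mono {G' : Set Y} (h : G ⊆ G') : Zs Φ v G ⊆ Zs Φ v G' := fun _ ⟨t, a, c⟩ => ⟨t, a, h c⟩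

theorem zs_fl (hB : Bas o v Φ M) {y : Y} {a t : ℝ} (h : (fl v t y, a + ag Φ v y t) ∈ Zs Φ v G) :
    (y, a) ∈ Zs Φ v G :=
  let ⟨s, h1, h2⟩ := h
  ⟨s + t, by rw [ag_add hB.smv hB.smΦ, ← add_assoc]; exact h1, by rw [fl_add hB.smv]; exact h2⟩

theorem zs_zero (hB : Bas o v Φ M) (hG : ∀ y ∈ G, y ∉ M) {y : Y} (hy : y ∉ M)
    (h : (y, 0) ∈ Zs Φ v G) : y ∈ G := by
  obtain ⟨t, h1, h2⟩ := h
  obtain rfl := (crs_ag hB (y := fun _ : Unit => y) (θ := fun _ => 0) (p := ()) h1 (hG _ h2)).unique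
    (crs_ag hB (t := 0) (by rw [ag_zero, add_zero]) (by rwa [Flo26.fl_zero hB.smv]))
  rwa [Flo26.fl_zero hB.smv] at h2

theorem spread (hB : Bas o v Φ M) (hG : ∀ y ∈ G, y ∉ M) {p q : Y × ℝ} (h : Jd (Zs Φ v G) p q)
    {y₀ : Y} (hq : q ∈ Zs Φ v (connectedComponentIn G y₀)) :
    p ∈ Zs Φ v (connectedComponentIn G y₀) := by
  obtain ⟨A, a1, a2, a3, a4⟩ := h
  choose! τ h1 h2 using fun q (hq : q ∈ A) => a1 hq
  have c := time_cont hB (C := A) continuousOn_fst continuousOn_snd fun p hp =>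
    ⟨h1 p hp, hG _ (h2 p hp)⟩
  have h3 := a2.image _ ((fl_cont hB.smv).comp_continuousOn (c.prodMk continuousOn_fst))
  obtain ⟨t, b1, b2⟩ := hq
  obtain rfl := (crs_ag hB (y := Prod.fst) (θ := Prod.snd) (h1 q a4) (hG _ (h2 q a4))).unique
    (crs_ag hB b1 (hG _ (connectedComponentIn_subset _ _ b2)))
  refine ⟨τ p, h1 p a3, ?_⟩
  rw [connectedComponentIn_eq b2]
  exact h3.subset_connectedComponentIn ⟨q, a4, rfl⟩ (image_subset_iff.2 h2) ⟨p, a3, rfl⟩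

theorem cross (hB : Bas o v Φ M) {O : Set Y} {y : Y} {a t₁ t₂ : ℝ} (ha : Φ y = Circle.exp a)
    (hσ : σ = 1 ∨ σ = -1) (h1 : σ * (a + ag Φ v y t₁) ≤ 0) (h2 : 0 ≤ σ * (a + ag Φ v y t₂))
    (hO : ∀ t ∈ uIcc t₁ t₂, fl v t y ∈ O) : (y, a) ∈ Zs Φ v ({y | Φ y = 1} ∩ O) := by
  obtain ⟨t, ht, e⟩ := intermediate_value_uIcc (f := fun t => σ * (a + ag Φ v y t))
    (continuous_const.mul (continuous_const.add (continuous_ag' hB.smv hB.smΦ y))).continuousOn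
    (mem_uIcc_of_le h1 h2)
  have e' : a + ag Φ v y t = 0 := by rcases hσ with rfl | rfl <;> linarith
  exact ⟨t, e', (phi_fl' hB.smv hB.smΦ ha t).trans (by rw [e', Circle.exp_zero]), hO t ht⟩

/-- components of open parts of the middle surface are relatively open -/
theorem comp_open (hB : Bas o v Φ M) {O : Set Y} (hO : IsOpen O) (hM : ∀ y ∈ O, y ∉ M) {y y₀ : Y}
    (hy : y ∈ connectedComponentIn ({y | Φ y = 1} ∩ O) y₀) :
    ∀ᶠ z in 𝓝 y, Φ z = 1 → z ∈ connectedComponentIn ({y | Φ y = 1} ∩ O) y₀ := by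
  have hv := hB.smv
  obtain ⟨h1, h2⟩ := connectedComponentIn_subset _ _ hy
  have a0 : ar 1 = 0 := by rw [← Circle.exp_zero, ar_exp (by simpa using pi_pos)]
  obtain ⟨A, hA, B, hB', hAB⟩ := mem_nhds_prod_iff.1 ((hO.preimage (fl_cont hv)).mem_nhds
    (show ((0 : ℝ), y) ∈ _ by rwa [mem_preimage, Flo26.fl_zero hv]))
  obtain ⟨ε, hε, hA'⟩ := Metric.nhds_basis_closedBall.mem_iff.1 hA
  have h3 := ag_strict hv hB.smΦ hB.nn (y := y) (t := 0)
    (by rw [Flo26.fl_zero hv]; exact hB.pos _ (hM _ h2))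
  have hn : ∀ᶠ z in 𝓝 y, (Φ z : ℂ) ≠ -1 := (isOpen_ne_fun (continuous_subtype_val.comp
    hB.smΦ.continuous) continuous_const).mem_nhds (show (Φ y : ℂ) ≠ -1 by rw [h1]; norm_num)
  have c : ∀ z, (Φ z : ℂ) ≠ -1 → ContinuousAt (fun z => ar (Φ z)) z := fun z hz =>
    (continuousAt_ar hz).comp hB.smΦ.continuous.continuousAt
  have c' : ∀ t, ContinuousAt (fun z => ar (Φ z) + ag Φ v z t) y := fun t =>
    (c y hn.self_of_nhds).add (ag_cont hv hB.smΦ continuous_id continuous_const).continuousAt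
  have e1 := (c' (-ε)).eventually_lt continuousAt_const
    (show _ < (0 : ℝ) by rw [h1, a0, zero_add, ← ag_zero y]; exact h3.1 _ (by linarith))
  have e2 := continuousAt_const.eventually_lt (c' ε)
    (show (0 : ℝ) < _ by rw [h1, a0, zero_add, ← ag_zero y]; exact h3.2 _ hε)
  haveI := ChartedSpace.locallyConnectedSpace (EE 3) Y
  obtain ⟨N, hN, hc, hs⟩ := locallyConnectedSpace_iff_connected_subsets.1 inferInstance y _
    (((hn.and e1).and e2).and (Eventually.and hB' (hO.mem_nhds h2)))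
  have hG : ∀ y ∈ {y | Φ y = 1} ∩ O, y ∉ M := fun y h => hM y h.2
  filter_upwards [hN] with z hz e
  refine zs_zero hB (fun y h => hG y (connectedComponentIn_subset _ _ h)) (hM _ (hs hz).2.2)
    (spread hB hG (q := (y, 0)) ⟨(fun z => (z, ar (Φ z))) '' N, ?_,
      hc.image _ (continuousOn_id.prodMk fun z hz => (c z (hs hz).1.1.1).continuousWithinAt),
      ⟨z, hz, by simp only [e, a0]⟩, y, mem_of_mem_nhds hN, by simp only [show Φ y = 1 from h1, a0]⟩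
      ⟨0, by rw [ag_zero, add_zero], by rwa [Flo26.fl_zero hv]⟩)
  rintro _ ⟨w, hw, rfl⟩
  refine cross hB (exp_ar _).symm (.inl rfl) (by linarith [(hs hw).1.1.2]) (by linarith [(hs hw).1.2])
    fun t ht => hAB (mk_mem_prod (hA' ?_) (hs hw).2.1)
  rw [uIcc_of_le (by linarith)] at ht
  exact mem_closedBall_zero_iff.2 (abs_le.2 ht)

end Crest.Agent.X212.Hel40
end
end

-- ▼ part X212/Hel40/Nr
section

/-!
# X212/Hel40/Nr (helper40): orbits near the plateau, the new column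
-/

set_option autoImplicit false
set_option linter.unusedSectionVars false

open Set Filter Topology Function Real
open scoped ContDiff Manifold
open Crest.Agent.X212.Dr59 Crest.Agent.X212.Cyl58
open Crest.Agent.X212.Sep15 (EE IR CM Box slab px Rg)
open Crest.Agent.X212.Bb31 (Fm)
open Crest.Agent.X212.Flo26 (SmV fl)

noncomputable section

namespace Crest.Agent.X212.Hel40

variable {Y : CM 3} {R : CM 2} {o : Fm 3 Y} {v : Vf Y} {Φ ψ : Y → Circle} {M M' K O W : Set Y}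
  {σ : ℝ} {oR : Fm 2 R} {b : R × ℝ → Y}

theorem sg_sg (hσ : σ = 1 ∨ σ = -1) (x : ℝ) : σ * (σ * x) = x := by rcases hσ with rfl | rfl <;> ring

theorem abs_sg (hσ : σ = 1 ∨ σ = -1) (x : ℝ) : |σ * x| = |x| := by rcases hσ with rfl | rfl <;> simp

theorem mem_sg (hσ : σ = 1 ∨ σ = -1) {s t : ℝ} (hs : 0 ≤ s) (ht : t ∈ uIcc 0 (σ * s)) :
    σ * t ∈ Icc 0 s := by
  rcases hσ with rfl | rfl <;> rcases mem_uIcc.1 ht with h | h <;> constructor <;> linarith [h.1, h.2]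

theorem ar_one : ar 1 = 0 := by rw [← Circle.exp_zero, ar_exp (by simpa using pi_pos)]

theorem sg_le (hv : SmV (𝓡 3) v) (hσ : σ = 1 ∨ σ = -1) (hO : IsOpen O) {g : Y → ℝ}
    (hg : ContMDiffOn (𝓡 3) 𝓘(ℝ, ℝ) ∞ g O) (h0 : ∀ y ∈ O, 0 ≤ dr g v y) {y : Y} {s : ℝ} (hs : 0 ≤ s)
    (h : ∀ t ∈ Icc 0 s, fl v (σ * t) y ∈ O) : σ * g y ≤ σ * g (fl v (σ * s) y) := by
  have k : ∀ z ∈ O, MDifferentiableAt (𝓡 3) 𝓘(ℝ, ℝ) g z ∧ 0 ≤ dr g v z := fun z hz =>
    ⟨(hg.contMDiffAt (hO.mem_nhds hz)).mdifferentiableAt (by simp), h0 z hz⟩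
  rcases hσ with rfl | rfl
  · have := le_of_dr hv (f := g) (y := y) hs fun t ht => k _ (by simpa using h t ht)
    rw [Flo26.fl_zero hv] at this
    simpa using this
  · have := le_of_dr hv (f := g) (y := y) (neg_nonpos.2 hs) fun t ht =>
      k _ (by simpa using h (-t) ⟨by linarith [ht.2], by linarith [ht.1]⟩)
    rw [Flo26.fl_zero hv] at this
    simpa using this

/-- segments whose angle does not grow stay in `W` -/
def Stay (v : Vf Y) (Φ : Y → Circle) (y : Y) (W : Set Y) : Prop :=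
  ∀ T : ℝ, (∀ t ∈ uIcc 0 T, (Φ y : ℂ).re ≤ (Φ (fl v t y) : ℂ).re) → fl v T y ∈ W

theorem Stay.seg (hB : Bas o v Φ M) (hσ : σ = 1 ∨ σ = -1) {y : Y} (h : Stay v Φ y W) {s : ℝ}
    (h1 : σ * (ar (Φ y) + ag Φ v y (σ * s)) ≤ 0) : ∀ t ∈ Icc 0 s, fl v (σ * t) y ∈ W := fun t ht => by
  refine h _ fun r hr => ?_
  have h2 := mem_sg hσ ht.1 hr
  have h3 := hB.mono hσ y h2.1
  have h4 := hB.mono hσ y (h2.2.trans ht.2)
  simp only [mul_zero, ag_zero, sg_sg hσ] at h3 h4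
  rw [phi_fl' hB.smv hB.smΦ (exp_ar _).symm, re_exp, ← exp_ar (Φ y), re_exp, exp_ar, ← cos_abs,
    ← cos_abs (_ + _)]
  refine cos_le_cos_of_nonneg_of_le_pi (abs_nonneg _) (abs_ar_le _) ?_
  rw [← abs_sg hσ, ← abs_sg hσ (ar _), abs_of_nonpos (by linarith), abs_of_nonpos (by linarith)]
  linarith

/-- a coloured point crosses the level `1` off the plateau -/
theorem free (hB : Bas o v Φ M) (hσ : σ = 1 ∨ σ = -1) (hO : IsOpen O) {g : Y → ℝ}
    (hg : ContMDiffOn (𝓡 3) 𝓘(ℝ, ℝ) ∞ g O) (h0 : ∀ y ∈ O, 0 ≤ dr g v y) (hM : ∀ y ∈ M, g y = 0)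
    (hW : IsClosed W) (hWO : W ⊆ O) {y : Y} (h : Stay v Φ y W) (hy : 0 < σ * g y) {c : ℝ}
    (h1 : σ * ar (Φ y) ≤ c) (h2 : c < 2 * π) :
    ∃ T, σ * (ar (Φ y) + ag Φ v y T) = c ∧ ∀ t ∈ uIcc 0 T, fl v t y ∉ M := by
  have hv := hB.smv
  have A : ∀ s ≥ 0, σ * (ar (Φ y) + ag Φ v y (σ * s)) ≤ 0 →
      fl v (σ * s) y ∈ W ∩ g ⁻¹' {x | σ * g y ≤ σ * x} := fun s hs h1 =>
    ⟨h.seg hB hσ h1 s ⟨hs, le_rfl⟩, sg_le hv hσ hO hg h0 hs fun t ht => hWO (h.seg hB hσ h1 t ht)⟩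
  have A' : ∀ z ∈ W ∩ g ⁻¹' {x | σ * g y ≤ σ * x}, z ∉ M := fun z hz hm => by
    have := hz.2
    rw [mem_preimage, hM z hm] at this
    exact hy.not_ge (by simpa using this)
  obtain ⟨s₀, hs₀, B⟩ : ∃ s ≥ 0, 0 < σ * (ar (Φ y) + ag Φ v y (σ * s)) := by
    by_contra hn
    push Not at hn
    obtain ⟨s, hs, e⟩ := grow hσ hv hB.smΦ ((hg.continuousOn.mono hWO).preimage_isClosed_of_isClosed
      hW (isClosed_le continuous_const (by fun_prop))).isCompact (fun z hz => hB.pos z (A' z hz))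
      (fun s hs => A s hs (hn s hs)) (1 - σ * ar (Φ y))
    linarith [hn s hs]
  obtain ⟨s, hs, e⟩ := hB.reach' hσ (exp_ar _).symm h1 h2 hs₀ B
  refine ⟨_, e, fun t ht hm => ?_⟩
  have h3 := mem_sg hσ hs ht
  have h4 := hB.mono hσ y h3.2
  rcases le_or_gt (σ * (ar (Φ y) + ag Φ v y (σ * (σ * t)))) 0 with k | k
  · exact A' _ (A _ h3.1 k) (by rwa [sg_sg hσ])
  · simp only [sg_sg hσ] at h4 k
    refine exp_ne_one (a := ar (Φ y) + ag Φ v y t) (fun e => by simp [e] at k) ?_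
      ((phi_fl' hv hB.smΦ (exp_ar _).symm t).symm.trans (hB.one _ hm))
    rw [← abs_sg hσ, abs_of_pos k]
    linarith

/-- a point with one colour is moved to a point with a good lift -/
theorem into (hB : Bas o v Φ M) (hψ : SC ψ) (hσ : σ = 1 ∨ σ = -1) {p q : Y → ℝ} {N : Set Y} {ρ c : ℝ}
    (cp : ContinuousOn p W) (cq : ContinuousOn q W) (hN : IsOpen N) (hNW : closure N ⊆ W)
    (hN' : ∀ y ∈ W, p y < ρ → q y < ρ → y ∈ N) (hM : ∀ y ∈ W, p y ≤ 0 → q y ≤ 0 → y ∈ M)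
    (hW : ∀ y ∈ W, 0 ≤ rt ψ v y ∧ |ar (Φ y)| ≤ c) (hc : c < π) {y : Y} (hy : y ∈ N) (hM' : y ∉ M)
    (mono : ∀ s ≥ 0, (∀ t ∈ Icc 0 s, fl v (σ * t) y ∈ W) → p (fl v (σ * s) y) ≤ p y)
    (h1 : 0 < p y) (h2 : p y < ρ) {r : ℝ} (hr : σ * r ≤ 0) (hθ : 0 ≤ σ * ar (Φ y)) :
    ∃ T, fl v T y ∈ closure N ∧ 0 < p (fl v T y) ∧ |r + ag ψ v y T| ≤ |r| + 1 ∧
      (0 < σ * (r + ag ψ v y T) ∨ 0 < q (fl v T y)) ∧ ar (Φ (fl v T y)) = ar (Φ y) + ag Φ v y T := by
  have hv := hB.smv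
  obtain ⟨c', c1, c2⟩ := exists_between hc
  have yW := hNW (subset_closure hy)
  have c3 : σ * ar (Φ y) ≤ c := (le_abs_self _).trans (by rw [abs_sg hσ]; exact (hW y yW).2)
  obtain ⟨s, hs, e⟩ := hB.reach' hσ (exp_ar _).symm (c := c') (by linarith) (by linarith [pi_pos])
    zero_le_one (by linarith [hB.strict hσ hM' one_pos])
  have ang : ∀ t ∈ Icc 0 s, |ar (Φ y) + ag Φ v y (σ * t)| < π := fun t ht => by
    have h3 := hB.mono hσ y ht.1
    have h4 := hB.mono hσ y ht.2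
    simp only [mul_zero, ag_zero] at h3 h4
    rw [← abs_sg hσ, abs_of_nonneg (by linarith)]
    linarith
  have ang' : ∀ t ∈ Icc 0 s, ar (Φ (fl v (σ * t) y)) = ar (Φ y) + ag Φ v y (σ * t) := fun t ht => by
    rw [phi_fl' hv hB.smΦ (exp_ar _).symm, ar_exp (ang t ht)]
  have cγ : Continuous fun t : ℝ => fl v (σ * t) y := fl_cont' hv (by fun_prop) continuous_const
  obtain ⟨t₁, a1, a2, -, a4⟩ := first_exit cγ hN (by rwa [mul_zero, Flo26.fl_zero hv]) hs fun h => by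
    have := (hW _ (hNW (subset_closure h))).2
    rw [ang' s ⟨hs, le_rfl⟩, ← abs_sg hσ, e] at this
    linarith [le_abs_self c']
  have a5 : ∀ t ∈ Icc 0 t₁, fl v (σ * t) y ∈ W := fun t ht => hNW (a4 t ht)
  have a6 : ∀ t ∈ Icc 0 t₁, fl v (σ * t) y ∉ M := fun t ht hm => by
    rcases ht.1.eq_or_lt with rfl | h
    · exact hM' (by rwa [mul_zero, Flo26.fl_zero hv] at hm)
    · have := ang' t ⟨ht.1, ht.2.trans a1.2⟩
      rw [hB.one _ hm, ar_one] at this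
      have h3 := hB.strict hσ hM' h
      rw [← neg_eq_iff_add_eq_zero.2 this.symm] at h3
      linarith
  have cr : ContinuousOn (fun t => σ * (r + ag ψ v y (σ * t))) (Icc 0 t₁) :=
    (continuous_const.mul (continuous_const.add
      (ag_cont hv hψ continuous_const (by fun_prop)))).continuousOn
  have cl := fun {f : ℝ → ℝ} (hf : ContinuousOn f (Icc 0 t₁)) {A : Set ℝ} (hA : IsClosed A) =>
    hf.preimage_isClosed_of_isClosed isClosed_Icc hA
  by_contra hn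
  have key : ∀ t ∈ Icc 0 t₁, (σ * (r + ag ψ v y (σ * t)) ≤ 0 ∧ q (fl v (σ * t) y) ≤ 0) ∨
      p (fl v (σ * t) y) ≤ 0 ∨ 1 ≤ σ * (r + ag ψ v y (σ * t)) := fun t ht => by
    by_contra h
    simp only [not_or, not_and_or, not_le] at h
    refine hn ⟨σ * t, a4 t ht, h.2.1, ?_, h.1, ang' t ⟨ht.1, ht.2.trans a1.2⟩⟩
    have := sg_mono hσ hv hB.smΦ ht.1 hψ (C := 0) fun t' ht' => by
      simpa using (hW _ (a5 t' ⟨ht'.1, ht'.2.trans ht.2⟩)).1
    rw [← abs_sg hσ, ← abs_sg hσ r, abs_of_nonpos hr]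
    exact abs_le.2 ⟨by linarith, by linarith [h.2.2]⟩
  have l0 : (0 : ℝ) ∈ Icc 0 t₁ := ⟨le_rfl, a1.1.le⟩
  have l1 : t₁ ∈ Icc 0 t₁ := ⟨a1.1.le, le_rfl⟩
  obtain ⟨t, ht, ⟨b1, b2⟩, b3⟩ := isPreconnected_closed_iff.1 isPreconnected_Icc _ _
    ((cl cr isClosed_Iic).inter (cl (cq.comp cγ.continuousOn a5) isClosed_Iic))
    ((cl (cp.comp cγ.continuousOn a5) isClosed_Iic).union (cl cr isClosed_Ici))
    (fun t ht => (key t ht).imp (fun h => ⟨⟨ht, h.1⟩, ht, h.2⟩) fun h =>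
      h.imp (fun h => ⟨ht, h⟩) fun h => ⟨ht, h⟩)
    ⟨0, l0, ((key 0 l0).resolve_right (by
      rw [mul_zero, Flo26.fl_zero hv, ag_zero, add_zero]
      exact fun h => h.elim h1.not_ge fun h => by linarith)).elim fun a c => ⟨⟨l0, a⟩, l0, c⟩⟩
    ⟨t₁, l1, ((key t₁ l1).resolve_left fun h => a2 (hN' _ (a5 _ l1)
      ((mono _ a1.1.le a5).trans_lt h2) (by linarith [h.2]))).imp (fun h => ⟨l1, h⟩) fun h => ⟨l1, h⟩⟩
  rcases b3 with b3 | b3
  · exact a6 t ht (hM _ (a5 t ht) b3.2 b2.2)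
  · exact (one_pos (α := ℝ)).not_ge ((mem_Ici.1 b3.2).trans (mem_Iic.1 b1.2))

/-! ### neighbourhoods of the plateau -/

theorem Pre.small (S : Pre v M M') (hW : W ∈ 𝓝ˢ M) : ∃ ρ > (0 : ℝ), ∃ N, IsOpen N ∧ M ⊆ N ∧
    closure N ⊆ W ∧ ∀ y, y ∈ N ↔ y ∈ S.O ∧ S.tp y < ρ ∧ -S.tm y < ρ := by
  let u : Y → ℝ := fun y => max (S.tp y) (-S.tm y)
  have uc : ContinuousOn u S.O := S.sp.continuousOn.sup S.sm.continuousOn.neg
  obtain ⟨m, hm, hm'⟩ := (S.cpt.diff (isOpen_interior (s := W))).exists_forall_le' (a := 0)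
    (uc.mono fun y hy => hy.1.1) fun y hy => not_le.1 fun h => hy.2
      (subset_interior_iff_mem_nhdsSet.2 hW ((S.meq y).2 ⟨hy.1.1,
        ((le_max_left _ _).trans h).antisymm (S.p0 y hy.1.1),
        (S.m0 y hy.1.1).antisymm (neg_nonpos.1 ((le_max_right _ _).trans h))⟩))
  have hρ : 0 < min S.r (m / 2) := lt_min S.rpos (half_pos hm)
  refine ⟨_, hρ, S.O ∩ u ⁻¹' Iio (min S.r (m / 2)), uc.isOpen_inter_preimage S.op isOpen_Iio,
    fun y hy => ?_, (closure_minimal (fun y hy => ?_) ((uc.mono fun y hy => hy.1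
      ).preimage_isClosed_of_isClosed S.cpt.isClosed (isClosed_Iic (a := m / 2)))).trans
      fun y hy => interior_subset (by_contra fun h => by
        linarith [hm' y ⟨hy.1, h⟩, show u y ≤ m / 2 from hy.2]),
    fun y => and_congr_right fun _ => max_lt_iff (b := S.tp y)⟩
  · obtain ⟨a1, a2, a3⟩ := (S.meq y).1 hy
    exact ⟨a1, by simpa [u, a2, a3] using hρ⟩
  · obtain ⟨a1, a2⟩ := lt_min_iff.1 (show u y < min _ _ from hy.2)
    obtain ⟨a3, a4⟩ := max_lt_iff.1 a1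
    exact ⟨⟨hy.1, a3.le, by linarith⟩, a2.le⟩

/-! ### the new column -/

theorem new_col (hX : Bx o v Φ oR b) {e : ℂ → R} {δ a : ℝ} (he : Hdl e δ) {k : ℕ} (hk : 0 < k)
    {m : ℤ} (hm : ∀ θ, |θ| < a → (θ + 2 * π * m) / k ∈ Ioo (bt 5) (bt 6))
    (hψ : ∀ z ∈ Xo δ, ∀ s ∈ Ioo (5 : ℝ) 6, ψ (b (e z, s)) = 1) :
    ∃ h : ℝ → ℝ, Col v (ψ * Φ ^ k) δ a (fun p => b (e p.1, h p.2)) ∧
      ∀ θ, |θ| < a → h θ ∈ Ioo (5 : ℝ) 6 ∧ k * bt (h θ) = θ + 2 * π * m := by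
  have k0 : (0 : ℝ) < k := Nat.cast_pos.2 hk
  let g : ℝ → ℝ := fun θ => ((θ + 2 * π * m) / k + π) / 2
  have h1 : ∀ θ, |θ| < a → -(π / 2) < g θ ∧ g θ < π / 2 := fun θ h =>
    ⟨by simp only [g]; linarith [(hm θ h).1, (bt_mem 5).1],
      by simp only [g]; linarith [(hm θ h).2, (bt_mem 6).2]⟩
  have h2 : ∀ θ, |θ| < a → bt (tan (g θ)) = (θ + 2 * π * m) / k := fun θ h => by
    rw [bt, arctan_tan (h1 θ h).1 (h1 θ h).2]; simp only [g]; ring
  have h3 : ∀ θ, |θ| < a → tan (g θ) ∈ Ioo (5 : ℝ) 6 ∧ k * bt (tan (g θ)) = θ + 2 * π * m :=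
    fun θ h => ⟨⟨bt_mono.lt_iff_lt.1 (h2 θ h ▸ (hm θ h).1), bt_mono.lt_iff_lt.1 (h2 θ h ▸ (hm θ h).2)⟩,
      by rw [h2 θ h]; field_simp⟩
  have h4 : ∀ θ, |θ| < a → cos (g θ) ≠ 0 := fun θ h => (cos_pos_of_mem_Ioo (h1 θ h)).ne'
  have h5 : ∀ θ, |θ| < a → HasDerivAt (fun θ => tan (g θ)) (1 / cos (g θ) ^ 2 * (1 / k / 2)) θ :=
    fun θ h => (hasDerivAt_tan (h4 θ h)).comp θ
      (((((hasDerivAt_id θ).add_const _).div_const _).add_const _).div_const _)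
  have h6 : ∀ θ, |θ| < a → 0 < 1 / cos (g θ) ^ 2 * (1 / k / 2 : ℝ) := fun θ h => by
    have := h4 θ h
    positivity
  have ld : ∀ p : ℂ × ℝ, p.1 ∈ Xo δ → |p.2| < a →
      IsLocalDiffeomorphAt ICR (𝓡 3) ∞ (fun p : ℂ × ℝ => b (e p.1, tan (g p.2))) p := fun p a1 a2 =>
    (Glue52.ld_prodMap_at (he.ld _ a1) (Glue52.ld_of_injective_mfderiv (f := fun θ => tan (g θ)) rfl
      (isOpen_lt continuous_abs continuous_const) a2 (fun θ h => ((contDiffAt_tan.2 (h4 θ h)).comp θ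
        (by simp only [g]; fun_prop)).contMDiffAt.contMDiffWithinAt) (by
      rw [(h5 _ a2).hasFDerivAt.hasMFDerivAt.mfderiv]
      exact fun (x y : ℝ) h => mul_right_cancel₀ (M₀ := ℝ) (h6 _ a2).ne' h))).comp (𝓡 3) Y (hX.box.loc _)
  refine ⟨fun θ => tan (g θ), ⟨he.pos, he.lt, ld, fun p q a1 a2 a3 a4 => ?_, fun p a1 a2 => ?_,
    fun p a1 a2 => ?_⟩, h3⟩
  · rw [hX.box.inj.eq_iff, Prod.mk.injEq, he.eq _ a1 _ a3, and_comm]
    refine and_congr_left fun _ => ⟨fun h => ?_, fun h => by rw [h]⟩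
    have := (h3 _ a2).2
    rw [show tan (g p.2) = tan (g q.2) from h, (h3 _ a4).2] at this
    linarith
  · rw [Pi.mul_apply, Pi.pow_apply, hψ _ a1 _ (h3 _ a2).1, one_mul, hX.ang', ← Circle.exp_natCast_mul,
      (h3 _ a2).2]
    exact Circle.exp_eq_exp.2 ⟨m, by ring⟩
  · obtain ⟨f, f1, f2⟩ := Box46.vert_vv hX.vert (e p.1, tan (g p.2))
    refine ⟨_, mul_pos (h6 _ a2) f1, ?_⟩
    have := Box46.mf_line (J := 𝓘(ℝ, ℂ)) (z := p.1) (hasDerivAt_id p.2)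
      ((ld p a1 a2).contMDiffAt.mdifferentiableAt (by simp))
    rw [one_smul] at this
    have h7 := Box46.mf_line (z := e p.1) (h5 _ a2)
      ((hX.box.contMDiff _).mdifferentiableAt (by simp))
    rw [f2, smul_smul] at h7
    exact this.symm.trans h7

end Crest.Agent.X212.Hel40
end
end

-- ▼ part X212/Hel40/Fw
section

/-!
# X212/Hel40/Fw (helper40): lifted points which reach the new middle surface
-/

set_option autoImplicit false
set_option linter.unusedSectionVars false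

open Set Filter Topology Function Real
open scoped ContDiff Manifold
open Crest.Agent.X212.Dr59 Crest.Agent.X212.Cyl58
open Crest.Agent.X212.Sep15 (EE IR CM Box slab px Rg)
open Crest.Agent.X212.Bb31 (Fm)
open Crest.Agent.X212.Flo26 (SmV fl)

noncomputable section

namespace Crest.Agent.X212.Hel40

variable {Y : CM 3} {R : CM 2} {o : Fm 3 Y} {v : Vf Y} {Φ ψ : Y → Circle} {M M' K O W : Set Y}
  {σ : ℝ} {oR : Fm 2 R} {b : R × ℝ → Y} {C : ℝ} {k : ℕ}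

/-- the controlled part -/
def Ct (v : Vf Y) (Φ : Y → Circle) (b : R × ℝ → Y) (K : Set Y) : Set Y :=
  slab b (Icc (-(9 / 2)) (9 / 2)) ∪ col v Φ K

theorem c5 : 0 < -bt 5 ∧ -bt 5 < π := ⟨neg_pos.2 (bt_mem 5).2, neg_lt.1 (bt_gt (by norm_num))⟩

theorem lift_eq {y : Y} {r θ : ℝ} (hr : ψ y = Circle.exp r) (hθ : Φ y = Circle.exp θ) :
    (ψ * Φ ^ k) y = Circle.exp (r + k * θ) := by
  rw [Pi.mul_apply, Pi.pow_apply, hr, hθ, Circle.exp_add, Circle.exp_natCast_mul]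

theorem lift_one {y : Y} {θ : ℝ} (h : (ψ * Φ ^ k) y = 1) (hθ : Φ y = Circle.exp θ) :
    ψ y = Circle.exp (-(k * θ)) := by
  rw [Pi.mul_apply, Pi.pow_apply, hθ, ← Circle.exp_natCast_mul] at h
  rw [Circle.exp_neg, eq_inv_of_mul_eq_one_left h]

theorem Ct.cpt (hB : Bas o v Φ M) (hX : Bx o v Φ oR b) (hK : K ⊆ PP Φ M) (hc : IsCompact K) :
    IsCompact (Ct v Φ b K) := by
  have h := (hX.cpt (-(9 / 2)) (9 / 2)).union (hB.col_compact hK hc (c := -bt (9 / 2))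
    (neg_lt.1 (bt_gt (by norm_num))))
  convert h using 1
  refine Subset.antisymm ?_ (union_subset_union_right _ fun y h => h.1)
  rintro y (hy | hy)
  · exact .inl hy
  · by_cases h1 : y ∈ slab b (Ioo (-(9 / 2)) (9 / 2))
    · exact .inl (image_mono (prod_mono_right Ioo_subset_Icc_self) h1)
    · exact .inr ⟨hy, (hX.not_slab (by norm_num)).1 h1⟩

theorem exists_C (hB : Bas o v Φ M) (hψ : SC ψ) (h : ∀ᶠ y in 𝓝ˢ M, 0 ≤ rt ψ v y) :
    ∃ C ≥ (0 : ℝ), ∀ y, 0 ≤ rt ψ v y + C * rt Φ v y := by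
  obtain ⟨N, hN, h1, h2⟩ := eventually_nhdsSet_iff_exists.1 h
  obtain ⟨m, hm, h3⟩ := hN.isClosed_compl.isCompact.exists_forall_le' (a := 0)
    (continuous_rt hB.smv hB.smΦ).continuousOn fun y hy => hB.pos y fun e => hy (h1 e)
  obtain ⟨B, h4⟩ := isCompact_univ.exists_bound_of_continuousOn (continuous_rt hB.smv hψ).continuousOn
  refine ⟨|B| / m, by positivity, fun y => ?_⟩
  by_cases hy : y ∈ N
  · exact add_nonneg (h2 y hy) (mul_nonneg (by positivity) (hB.nn y))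
  · have h5 := mul_le_mul_of_nonneg_left (h3 y hy) (show 0 ≤ |B| / m by positivity)
    rw [div_mul_cancel₀ _ hm.ne'] at h5
    linarith [(abs_le.1 (h4 y trivial)).1, le_abs_self B]

theorem back (hB : Bas o v Φ M) (hX : Bx o v Φ oR b) (hψ : SC ψ) {X : Type*} [TopologicalSpace X]
    {y : X → Y} {θ : X → ℝ} {x : X → R} {A : Set X} (hA : IsCompact A) (hy : ContinuousOn y A)
    (hθ : ContinuousOn θ A)
    (h : ∀ p ∈ A, ∃ T, θ p + ag Φ v (y p) T = bt 5 ∧ fl v T (y p) = b (x p, 5)) :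
    ∃ D ≥ (0 : ℝ), ∀ p ∈ A, ∀ r, ψ (y p) = Circle.exp r → ∃ r', |r' - r| ≤ D ∧
      ψ (b (x p, 5)) = Circle.exp r' ∧ ∀ (k : ℕ) G, SC (ψ * Φ ^ k) →
        (b (x p, 5), r' + k * bt 5) ∈ Zs (ψ * Φ ^ k) v G → (y p, r + k * θ p) ∈ Zs (ψ * Φ ^ k) v G := by
  obtain ⟨D, hD⟩ := bnd hB hψ hA hy (θ := fun p => θ p - bt 5) (hθ.sub continuousOn_const)
    (P := fun p z => z = b (x p, 5)) fun p hp => by
      obtain ⟨T, a1, a2⟩ := h p hp
      exact ⟨T, by linarith, a2 ▸ hX.notMem hB _, a2⟩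
  refine ⟨|D|, abs_nonneg _, fun p hp r hr => ?_⟩
  obtain ⟨T, a1, a2, a3⟩ := hD p hp
  refine ⟨r + ag ψ v (y p) T, by rw [add_sub_cancel_left]; exact a3.trans (le_abs_self _),
    a2 ▸ phi_fl' hB.smv hψ hr T, fun k G hk ⟨s, h1, h2⟩ => ⟨s + T, ?_, ?_⟩⟩
  · rw [ag_add hB.smv hk, ag_mul_pow hB.smv hψ hB.smΦ, a2]
    dsimp only at h1 ⊢
    linear_combination h1 + k * a1
  · rw [fl_add hB.smv, a2]; exact h2

theorem back_col (hB : Bas o v Φ M) (hX : Bx o v Φ oR b) {F : Set R} {f : Y → R} {p : R → Y}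
    (ft : Ft v Φ M b 1 F f p) {y : Y} (hy : y ∈ col v Φ (PP Φ M)) :
    ∃ T, ar (Φ y) + ag Φ v y T = bt 5 ∧ fl v T y = b (f y, 5) := by
  have h0 : |bt 5| < π := abs_lt.2 ⟨by linarith [c5.2], by linarith [c5.1, pi_pos]⟩
  obtain ⟨T, h⟩ := hB.col_reach subset_rfl hy h0
  obtain ⟨x, s, a1, a2⟩ := hX.of_ang (phi_fl' hB.smv hB.smΦ (exp_ar _).symm T)
    (h ▸ (bt_mem 5).1) (h ▸ (bt_mem 5).2)
  obtain rfl := bt_mono.injective (a2.trans h)
  have := (ft.flow y hy T (hB.seg (exp_ar _).symm (abs_ar_lt (col_ne hB.smv hy)) (h ▸ h0))).2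
  rw [a1, ft.box x 5 (by norm_num)] at this
  exact ⟨T, h, this ▸ a1⟩

variable (hB : Bas o v Φ M) (hX : Bx o v Φ oR b) (hψ : SC ψ) (hB' : Bas o v (ψ * Φ ^ k) M')
include hB hX hψ hB'

theorem fw (hσ : σ = 1 ∨ σ = -1) {y : Y} {r T : ℝ} (hr : ψ y = Circle.exp r) (hK : y ∉ col v Φ K)
    (h1 : |ar (Φ y)| ≤ -bt 5) (h2 : |ar (Φ y) + ag Φ v y T| ≤ -bt 5)
    (hM : ∀ t ∈ uIcc 0 T, fl v t y ∉ M) (a1 : σ * (r + k * ar (Φ y)) ≤ 0)
    (a2 : 0 ≤ σ * (r + ag ψ v y T + k * (ar (Φ y) + ag Φ v y T))) :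
    (y, r + k * ar (Φ y)) ∈ Zs (ψ * Φ ^ k) v ({y | (ψ * Φ ^ k) y = 1} ∩ (Ct v Φ b K ∪ M)ᶜ) := by
  refine cross hB' (t₁ := 0) (t₂ := T) (lift_eq hr (exp_ar _).symm) hσ (by rwa [ag_zero, add_zero])
    (by rw [ag_mul_pow hB.smv hψ hB.smΦ]; linarith) fun t ht => ?_
  have h3 := (ag_mono hB.smv hB.smΦ hB.nn y).mapsTo_uIcc ht
  rw [ag_zero] at h3
  have h4 : |ar (Φ y) + ag Φ v y t| ≤ -bt 5 := by
    rw [abs_le] at h1 h2 ⊢
    rcases mem_uIcc.1 h3 with h | h <;> constructor <;> linarith [h.1, h.2]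
  rintro ((h | h) | h)
  · refine (hX.not_slab (c := 5) (by norm_num)).2 ?_
      (image_mono (prod_mono_right (Icc_subset_Ioo (by norm_num) (by norm_num))) h)
    rwa [phi_fl' hB.smv hB.smΦ (exp_ar _).symm, ar_exp (h4.trans_lt c5.2)]
  · exact hK (col_of_fl hB.smv h (hB.seg (exp_ar _).symm (h1.trans_lt c5.2) (h4.trans_lt c5.2)))
  · exact hM t ht h

theorem a_sheet {x : R} {r : ℝ} (hr : ∀ s ∈ Icc (4 : ℝ) 6, ψ (b (x, s)) = Circle.exp r)
    (hK : b (x, 5) ∉ col v Φ K) (h1 : -(k * bt 6) ≤ r) (h2 : r ≤ -(k * bt 5)) :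
    (b (x, 5), r + k * bt 5) ∈ Zs (ψ * Φ ^ k) v ({y | (ψ * Φ ^ k) y = 1} ∩ (Ct v Φ b K ∪ M)ᶜ) := by
  obtain ⟨T, -, a2, a3⟩ := box_go hB hX x 5 6
  have e := hX.ar_pos x (s := 5) (by norm_num)
  have h5 := hr 5 (by norm_num)
  have e0 := ag_eq_zero hB.smv hψ (T := T) fun t ht => by
    obtain ⟨s, b1, b2⟩ := a3 t ht
    rw [uIcc_of_le (by norm_num)] at b1
    rw [b2, h5, hr s ⟨by linarith [b1.1], b1.2⟩]
  rw [← e]
  refine fw hB hX hψ hB' (T := T) (.inl rfl) h5 hK (by rw [e, abs_of_neg (bt_mem 5).2])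
    (by rw [e, a2, abs_of_neg (bt_mem 6).2, neg_le_neg_iff]; exact bt_mono.monotone (by norm_num))
    (fun t ht => ?_) (by rw [e]; linarith) (by rw [e, a2, e0]; linarith)
  obtain ⟨s, -, b2⟩ := a3 t ht
  exact b2 ▸ hX.notMem hB _

/-- the second kind of good points near the plateau -/
theorem fwB (hσ : σ = 1 ∨ σ = -1) {y : Y} {r : ℝ} (hr : ψ y = Circle.exp r) (hK : y ∉ col v Φ K)
    (h1 : |ar (Φ y)| ≤ -bt 5) (hS : Stay v Φ y W) (hW : ∀ y ∈ W, 0 ≤ rt ψ v y) (hk : 0 < k)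
    (a1 : σ * (r + k * ar (Φ y)) ≤ 0) (a2 : 0 < σ * r) :
    (y, r + k * ar (Φ y)) ∈ Zs (ψ * Φ ^ k) v ({y | (ψ * Φ ^ k) y = 1} ∩ (Ct v Φ b K ∪ M)ᶜ) := by
  have k0 : (0 : ℝ) < k := Nat.cast_pos.2 hk
  have c0 : -(σ * r) / k < 0 := div_neg_of_neg_of_pos (by linarith) k0
  have h2 := (abs_le.1 ((abs_sg hσ _).le.trans h1)).1
  have ne : ∀ x, σ * ar (Φ y) ≤ x → x < 0 → Circle.exp (σ * x) ≠ 1 := fun x b1 b2 =>
    exp_ne_one (fun e => b2.ne (by rw [← sg_sg hσ x, e, mul_zero]))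
      (by rw [abs_sg hσ, abs_of_neg b2]; linarith [c5.2, pi_pos])
  obtain ⟨s, hs, e⟩ := hB.reach hσ (exp_ar _).symm (c := -(σ * r) / k)
    (by rw [le_div_iff₀ k0]; linarith) fun x hx => ne x hx.1 (hx.2.trans_lt c0)
  have h3 := sg_mono hσ hB.smv hB.smΦ hs hψ (C := 0) fun t ht => by
    simpa using hW _ (hS.seg hB hσ (e ▸ c0.le) t ht)
  have h4 := hB.mono hσ y hs
  simp only [mul_zero, ag_zero] at h4
  refine fw hB hX hψ hB' (T := σ * s) hσ hr hK h1 ?_ (fun t ht hm => ?_) a1 ?_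
  · rw [← abs_sg hσ, abs_of_neg (e ▸ c0)]; linarith
  · have b1 := mem_sg hσ hs ht
    have b2 := hB.mono hσ y b1.1
    have b3 := hB.mono hσ y b1.2
    simp only [mul_zero, ag_zero, sg_sg hσ] at b2 b3
    refine ne (σ * (ar (Φ y) + ag Φ v y t)) (by linarith) (by linarith) ?_
    rw [sg_sg hσ, ← phi_fl' hB.smv hB.smΦ (exp_ar _).symm, hB.one _ hm]
  · have : k * (σ * (ar (Φ y) + ag Φ v y (σ * s))) = -(σ * r) := by rw [e]; field_simp
    linarith

variable (hC0 : 0 ≤ C) (hC : ∀ y, 0 ≤ rt ψ v y + C * rt Φ v y)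
include hC0 hC

theorem fwA (hσ : σ = 1 ∨ σ = -1) {y : Y} {r T : ℝ} (hr : ψ y = Circle.exp r) (hK : y ∉ col v Φ K)
    (h1 : |ar (Φ y)| ≤ -bt 5) (h1' : σ * ar (Φ y) < -bt 5)
    (h2 : σ * (ar (Φ y) + ag Φ v y T) = -bt 5) (hM : ∀ t ∈ uIcc 0 T, fl v t y ∉ M)
    (a1 : σ * (r + k * ar (Φ y)) ≤ 0) (a2 : 2 * π * C + k * bt 5 ≤ σ * r) :
    (y, r + k * ar (Φ y)) ∈ Zs (ψ * Φ ^ k) v ({y | (ψ * Φ ^ k) y = 1} ∩ (Ct v Φ b K ∪ M)ᶜ) := by
  have h3 := gain hB hψ hC hσ (y := y) (T := T) (by linarith)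
  have h4 := (abs_le.1 ((abs_sg hσ _).le.trans h1)).1
  have h5 := mul_le_mul_of_nonneg_left (show σ * ag Φ v y T ≤ 2 * π by linarith [c5.2]) hC0
  refine fw hB hX hψ hB' hσ hr hK h1 (by rw [← abs_sg hσ, h2, abs_of_pos c5.1]) hM a1 ?_
  have : k * (σ * (ar (Φ y) + ag Φ v y T)) = k * -bt 5 := by rw [h2]
  linarith

theorem a_free {x : R} {r : ℝ} (hr : ψ (b (x, 5)) = Circle.exp r) (hF : b (x, 5) ∈ col v Φ (PP Φ M))
    (hK : b (x, 5) ∉ col v Φ K) (h1 : 2 * π * C + k * bt 5 ≤ r) (h2 : r ≤ -(k * bt 5)) :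
    (b (x, 5), r + k * bt 5) ∈ Zs (ψ * Φ ^ k) v ({y | (ψ * Φ ^ k) y = 1} ∩ (Ct v Φ b K ∪ M)ᶜ) := by
  have e := hX.ar_pos x (s := 5) (by norm_num)
  have h0 : |-bt 5| < π := by rw [abs_of_pos c5.1]; exact c5.2
  obtain ⟨T, h⟩ := hB.col_reach subset_rfl hF h0
  have sg := hB.seg (exp_ar _).symm (abs_ar_lt (col_ne hB.smv hF)) (h ▸ h0)
  rw [← e]
  exact fwA hB hX hψ hB' hC0 hC (T := T) (.inl rfl) hr hK (by rw [e, abs_of_neg (bt_mem 5).2])
    (by rw [e]; linarith [c5.1]) (by linarith) (fun t ht => hB.col_notMem subset_rfl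
      (col_fl hB.smv hF fun s hs => sg s (uIcc_subset_uIcc_left ht hs))) (by rw [e]; linarith)
    (by linarith)

theorem a_slab {x : R} {r T : ℝ} (hT : 5 < T) (hr : ψ (b (x, 5)) = Circle.exp r)
    (h1 : 2 * π * C - k * bt T ≤ r) (h2 : r ≤ -(k * bt (-T)) - 2 * π * C) :
    (b (x, 5), r + k * bt 5) ∈ Zs (ψ * Φ ^ k) v ({y | (ψ * Φ ^ k) y = 1} ∩ Mᶜ) := by
  obtain ⟨t₁, -, a2, a3⟩ := box_go hB hX x 5 (-T)
  obtain ⟨t₂, -, b2, b3⟩ := box_go hB hX x 5 T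
  have m1 := bt_mono hT
  have m2 := bt_mono (show -T < 5 by linarith)
  have g1 := gain hB hψ hC (.inr rfl) (y := b (x, 5)) (T := t₁) (by linarith)
  have g2 := gain hB hψ hC (.inl rfl) (y := b (x, 5)) (T := t₂) (by linarith)
  have l1 := mul_le_mul_of_nonneg_left (show -1 * ag Φ v (b (x, 5)) t₁ ≤ 2 * π by
    linarith [(bt_mem 5).2, (bt_mem (-T)).1]) hC0
  have l2 := mul_le_mul_of_nonneg_left (show 1 * ag Φ v (b (x, 5)) t₂ ≤ 2 * π by
    linarith [(bt_mem 5).1, (bt_mem T).2]) hC0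
  refine cross hB' (t₁ := t₁) (t₂ := t₂) (lift_eq hr (hX.ang' x 5)) (.inl rfl) ?_ ?_ fun t ht => ?_
  · rw [ag_mul_pow hB.smv hψ hB.smΦ]
    have : k * (bt 5 + ag Φ v (b (x, 5)) t₁) = k * bt (-T) := by rw [a2]
    linarith
  · rw [ag_mul_pow hB.smv hψ hB.smΦ]
    have : k * (bt 5 + ag Φ v (b (x, 5)) t₂) = k * bt T := by rw [b2]
    linarith
  · obtain ⟨s, -, e⟩ := (uIcc_subset_uIcc_union_uIcc (b := 0) ht).elim
      (fun h => (a3 t (by rwa [uIcc_comm])).imp fun _ h => (⟨trivial, h.2⟩ : True ∧ _))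
      fun h => (b3 t h).imp fun _ h => ⟨trivial, h.2⟩
    exact e ▸ hX.notMem hB _

theorem ctl (hK : K ⊆ PP Φ M) {K' : Set Y} (hK' : {y | (ψ * Φ ^ k) y = 1} ∩ Ct v Φ b K ⊆ K')
    (hk : C ≤ k) (h1 : π ≤ (k - C) * (bt (9 / 2) - bt 4)) (h2 : π ≤ (k - C) * (bt 4 - bt 3)) :
    slab b (Icc (-4) 4) ∪ col v Φ K ⊆ Mid (ψ * Φ ^ k) ∪ col v (ψ * Φ ^ k) K' := fun y hy => by
  refine or_iff_not_imp_left.2 fun hn => ?_
  have h3 := abs_le.1 (abs_ar_le_of (c := (ψ * Φ ^ k) y) (a := π / 2) (by positivity)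
    (by rw [cos_pi_div_two]; exact not_lt.1 hn))
  obtain ⟨σ, hσ, h4, h5⟩ : ∃ σ : ℝ, (σ = 1 ∨ σ = -1) ∧ σ * ar ((ψ * Φ ^ k) y) ≤ 0 ∧
      -π ≤ σ * ar ((ψ * Φ ^ k) y) := (le_total (ar ((ψ * Φ ^ k) y)) 0).elim
    (fun h => ⟨1, .inl rfl, by linarith, by linarith [pi_pos]⟩)
    fun h => ⟨-1, .inr rfl, by linarith, by linarith [pi_pos]⟩
  obtain ⟨T, g, g0, g1, g2, g3⟩ : ∃ T g, 0 < g ∧ π ≤ (k - C) * g ∧ g ≤ σ * ag Φ v y T ∧
      ∀ t ∈ uIcc 0 T, fl v t y ∈ Ct v Φ b K := by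
    by_cases h : y ∈ slab b (Icc (-4) 4)
    · obtain ⟨⟨x, s⟩, ⟨-, s1, s2⟩, rfl⟩ := h
      obtain ⟨T, -, a2, a3⟩ := box_go hB hX x s (σ * (9 / 2))
      refine ⟨T, _, sub_pos.2 (bt_mono (by norm_num)), h1, ?_, fun t ht => ?_⟩
      · have m1 := bt_mono.monotone s1
        have m2 := bt_mono.monotone s2
        rcases hσ with rfl | rfl
        · rw [one_mul] at a2; linarith
        · rw [neg_one_mul, bt_neg] at a2; rw [bt_neg] at m1; linarith
      · obtain ⟨r, b1, b2⟩ := a3 t ht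
        refine .inl ⟨(x, r), ⟨trivial, ?_⟩, b2.symm⟩
        dsimp only at s1 s2
        rcases hσ with rfl | rfl <;> rcases mem_uIcc.1 b1 with h | h <;> constructor <;>
          linarith [h.1, h.2]
    · have a1 := hy.resolve_left h
      have a2 := (hX.not_slab (c := 4) (by norm_num)).1 fun e =>
        h (image_mono (prod_mono_right Ioo_subset_Icc_self) e)
      have h0 : |σ * -bt 3| < π := by
        rw [abs_sg hσ, abs_neg, abs_of_neg (bt_mem 3).2]; exact neg_lt.1 (bt_gt (by norm_num))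
      obtain ⟨T, e⟩ := hB.col_reach hK a1 h0
      have sg := hB.seg (exp_ar _).symm (abs_ar_lt (col_ne hB.smv a1)) (e ▸ h0)
      refine ⟨T, _, sub_pos.2 (bt_mono (by norm_num)), h2, ?_, fun t ht =>
        .inr (col_fl hB.smv a1 fun s hs => sg s (uIcc_subset_uIcc_left ht hs))⟩
      have a3 := congrArg (σ * ·) e
      simp only [sg_sg hσ, mul_add] at a3
      linarith [(abs_le.1 ((abs_sg hσ _).le.trans a2)).2]
  have g4 := gain hB hψ hC hσ (g0.trans_le g2)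
  have g5 := mul_le_mul_of_nonneg_left g2 (sub_nonneg.2 hk)
  obtain ⟨t, b1, b2⟩ := cross hB' (t₁ := 0) (t₂ := T) (exp_ar _).symm hσ (by rwa [ag_zero, add_zero])
    (by rw [ag_mul_pow hB.smv hψ hB.smΦ]; linarith) g3
  exact ⟨t, hK' b2, hB'.seg (exp_ar _).symm (abs_lt.2 ⟨by linarith [pi_pos], by linarith [pi_pos]⟩)
    (by rw [show ar _ + ag _ v y t = 0 from b1]; simpa using pi_pos)⟩

end Crest.Agent.X212.Hel40
end
end

-- ▼ part X212/Hel40/Band
section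

/-!
# X212/Hel40/Band (helper40): the new state (`BandStmt`)
-/

set_option autoImplicit false
set_option linter.unusedSectionVars false

open Set Filter Topology Function Real
open scoped ContDiff Manifold
open Crest.Agent.X212.Dr59 Crest.Agent.X212.Cyl58
open Crest.Agent.X212.Sep15 (EE IR CM Box slab px Rg)
open Crest.Agent.X212.Bb31 (Fm)
open Crest.Agent.X212.Flo26 (SmV fl)

noncomputable section

namespace Crest.Agent.X212.Hel40

variable {Y : CM 3} {R : CM 2} {o : Fm 3 Y} {v : Vf Y} {Φ ψ : Y → Circle} {M M' K N W W₁ : Set Y}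
  {σ : ℝ} {oR : Fm 2 R} {b : R × ℝ → Y} {C : ℝ} {k : ℕ}

theorem ev {c : ℝ} (hc : 0 < c) (A : ℝ) : ∀ᶠ k : ℕ in atTop, A ≤ k * c :=
  (tendsto_natCast_atTop_atTop.atTop_mul_const hc).eventually_ge_atTop A

theorem Jd.image {Z Z' : Type*} [TopologicalSpace Z] [TopologicalSpace Z'] {B : Set Z} {B' : Set Z'}
    {p q : Z} (h : Jd B p q) {f : Z → Z'} (hf : ContinuousOn f B) (hB : MapsTo f B B') :
    Jd B' (f p) (f q) :=
  let ⟨A, a1, a2, a3, a4⟩ := h
  ⟨f '' A, (hB.mono_left a1).image_subset, a2.image _ (hf.mono a1), ⟨p, a3, rfl⟩, q, a4, rfl⟩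

theorem exists_sg (x : ℝ) : ∃ σ : ℝ, (σ = 1 ∨ σ = -1) ∧ σ * x ≤ 0 :=
  (le_total x 0).elim (fun h => ⟨1, .inl rfl, by linarith⟩) fun h => ⟨-1, .inr rfl, by linarith⟩

theorem Pre.free (S : Pre v M M') (hB : Bas o v Φ M) (hσ : σ = 1 ∨ σ = -1) (hW : IsClosed W)
    (hWO : W ⊆ S.O) {y : Y} (h : Stay v Φ y W) (h0 : (σ = 1 → 0 < S.tp y) ∧ (σ = -1 → S.tm y < 0))
    {c : ℝ} (h1 : σ * ar (Φ y) ≤ c) (h2 : c < 2 * π) :
    ∃ T, σ * (ar (Φ y) + ag Φ v y T) = c ∧ ∀ t ∈ uIcc 0 T, fl v t y ∉ M := by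
  rcases hσ with rfl | rfl
  · exact Hel40.free hB (.inl rfl) S.op S.sp S.pv (fun y h => ((S.meq y).1 h).2.1) hW hWO h
      (by linarith [h0.1 rfl]) h1 h2
  · exact Hel40.free hB (.inr rfl) S.op S.sm S.mv (fun y h => ((S.meq y).1 h).2.2) hW hWO h
      (by linarith [h0.2 rfl]) h1 h2

/-- points of the new middle surface near the plateau flow into `Gam` -/
theorem Pre.into (S : Pre v M M') (hB : Bas o v Φ M) (hψ : SC ψ) {ρ c : ℝ} (hN : IsOpen N)
    (hNW : closure N ⊆ W) (eN : ∀ y, y ∈ N ↔ y ∈ S.O ∧ S.tp y < ρ ∧ -S.tm y < ρ) (hc : c < π)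
    (hW : ∀ y ∈ W, y ∈ S.O ∧ ψ y = S.φ y ∧ 0 ≤ rt ψ v y ∧ |ar (Φ y)| ≤ c) {y : Y} (hy : y ∈ N)
    (hM : y ∉ M) {r : ℝ} (hr : ψ y = Circle.exp r) (s1 : 0 ≤ r → ar (Φ y) ≤ 0)
    (s2 : r ≤ 0 → 0 ≤ ar (Φ y)) : ∃ T, fl v T y ∈ closure N ∧ (fl v T y, r + ag ψ v y T) ∈ S.Gam ∧
      |r + ag ψ v y T| ≤ |r| + 1 ∧ ar (Φ (fl v T y)) = ar (Φ y) + ag Φ v y T := by
  have hv := hB.smv
  have sO : W ⊆ S.O := fun y h => (hW y h).1
  obtain ⟨y0, y1, y2⟩ := (eN y).1 hy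
  have key : ∀ T, fl v T y ∈ closure N → fl v T y ∈ S.O ∧
      S.φ (fl v T y) = Circle.exp (r + ag ψ v y T) := fun T h =>
    ⟨sO (hNW h), (hW _ (hNW h)).2.1.symm.trans (phi_fl' hv hψ hr T)⟩
  by_cases g : (0 < S.tp y ∧ r < 0) ∨ (S.tm y < 0 ∧ 0 < r) ∨ (0 < S.tp y ∧ S.tm y < 0)
  · have h0 : fl v 0 y ∈ closure N := by rw [Flo26.fl_zero hv]; exact subset_closure hy
    refine ⟨0, h0, ⟨(key 0 h0).1, (key 0 h0).2, ?_⟩, ?_, ?_⟩ <;>
      simp only [ag_zero, add_zero, Flo26.fl_zero hv]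
    exacts [g, by linarith]
  simp only [not_or, not_and, not_lt] at g
  rcases (S.p0 y y0).eq_or_lt with h | h
  · have h' : S.tm y < 0 := (S.m0 y y0).lt_of_ne fun e => hM ((S.meq y).2 ⟨y0, h.symm, e⟩)
    obtain ⟨T, a1, a2, a3, a4, a5⟩ := Hel40.into hB hψ (.inl rfl) (p := fun y => -S.tm y) (q := S.tp)
      (S.sm.continuousOn.mono sO).neg (S.sp.continuousOn.mono sO) hN hNW
      (fun y h a c => (eN y).2 ⟨sO h, c, a⟩) (fun y h a c => (S.meq y).2 ⟨sO h,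
        c.antisymm (S.p0 y (sO h)), (S.m0 y (sO h)).antisymm (by linarith)⟩)
      (fun y h => (hW y h).2.2) hc hy hM (fun s hs h => by
        linarith [sg_le hv (.inl rfl) S.op S.sm S.mv hs fun t ht => sO (h t ht)])
      (by linarith) y2 (r := r) (by linarith [g.2.1 h']) (by linarith [s2 (g.2.1 h')])
    exact ⟨T, a1, ⟨(key T a1).1, (key T a1).2, .inr (a4.imp (fun h => ⟨by linarith, by linarith⟩)
      fun h => ⟨h, by linarith⟩)⟩, a3, a5⟩
  · obtain ⟨T, a1, a2, a3, a4, a5⟩ := Hel40.into hB hψ (.inr rfl) (p := S.tp) (q := fun y => -S.tm y)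
      (S.sp.continuousOn.mono sO) (S.sm.continuousOn.mono sO).neg hN hNW
      (fun y h a c => (eN y).2 ⟨sO h, a, c⟩) (fun y h a c => (S.meq y).2 ⟨sO h,
        a.antisymm (S.p0 y (sO h)), (S.m0 y (sO h)).antisymm (by linarith)⟩)
      (fun y h => (hW y h).2.2) hc hy hM (fun s hs h => by
        linarith [sg_le hv (.inr rfl) S.op S.sp S.pv hs fun t ht => sO (h t ht)])
      h y1 (r := r) (by linarith [g.1 h]) (by linarith [s1 (g.1 h)])
    exact ⟨T, a1, ⟨(key T a1).1, (key T a1).2, a4.imp (fun h => ⟨a2, by linarith⟩)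
      fun h => .inr ⟨a2, by linarith⟩⟩, a3, a5⟩

/-- points of `Gam` reach the new middle surface -/
theorem Pre.gam (S : Pre v M M') (hB : Bas o v Φ M) (hX : Bx o v Φ oR b) (hψ : SC ψ)
    (hB' : Bas o v (ψ * Φ ^ k) M') (hC0 : 0 ≤ C) (hC : ∀ y, 0 ≤ rt ψ v y + C * rt Φ v y) (hk : 0 < k)
    (hW : IsClosed W) (sW : ∀ y ∈ W, y ∈ S.O ∧ 0 ≤ rt ψ v y) {y : Y} {r : ℝ} (h : (y, r) ∈ S.Gam)
    (e : ψ y = S.φ y) (hS : Stay v Φ y W) (hK : y ∉ col v Φ K) (h1 : |ar (Φ y)| < -bt 5)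
    (h2 : |r| + 2 * π * C ≤ -(k * bt 5)) :
    (y, r + k * ar (Φ y)) ∈ Zs (ψ * Φ ^ k) v ({y | (ψ * Φ ^ k) y = 1} ∩ (Ct v Φ b K ∪ M)ᶜ) := by
  obtain ⟨σ, hσ, h3⟩ := exists_sg (r + k * ar (Φ y))
  have hr := e.trans h.2.1
  rcases lt_or_ge 0 (σ * r) with h4 | h4
  · exact fwB hB hX hψ hB' hσ hr hK h1.le hS (fun y h => (sW y h).2) hk h3 h4
  have h5 : σ * ar (Φ y) < -bt 5 := ((le_abs_self _).trans (abs_sg hσ _).le).trans_lt h1
  obtain ⟨T, a1, a2⟩ := S.free hB hσ hW (fun y h => (sW y h).1) hS ⟨fun e => h.2.2.elim And.left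
    fun h => h.elim (fun h => by rw [e] at h4; linarith [h.2]) And.left, fun e => h.2.2.elim
      (fun h => by rw [e] at h4; linarith [h.2]) fun h => h.elim And.left And.right⟩ h5.le
    (by linarith [c5.2, pi_pos])
  exact fwA hB hX hψ hB' hC0 hC hσ hr hK h1.le h5 a1 a2 h3
    (by linarith [neg_abs_le (σ * r), abs_sg hσ r])

set_option maxHeartbeats 800000 in
theorem band (hF : FootStmt) (hS : SlabStmt) : BandStmt := by
  intro Y R o v Φ M M' K U' oR b S ψ u a e δ hB hX hCd cK sK cP cPK cR hψ hφ hu _ hd ha he he' hU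
  have hv := hB.smv
  obtain ⟨F, f, p, ft⟩ := hF Y R o v Φ M oR b 1 hB hX (.inl rfl) ⟨a 0⟩
  have u5 : ∀ x, ψ (b (x, 5)) = u x := fun x => hu x 5 (by norm_num)
  have cb := hX.box.contMDiff.continuous
  have cu : Continuous u := (hψ.continuous.comp (cb.comp (Continuous.prodMk_left 5))).congr u5
  have cΦ : Continuous fun y => (Φ y : ℂ) := continuous_subtype_val.comp hB.smΦ.continuous
  have car : ∀ y, (Φ y : ℂ) ≠ -1 → ContinuousAt (fun y => ar (Φ y)) y := fun y h =>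
    (continuousAt_ar h).comp hB.smΦ.continuous.continuousAt
  haveI := ChartedSpace.locallyConnectedSpace (EE 2) R
  -- neighbourhoods of the plateau
  obtain ⟨W₀, o₀, m₀, e₀⟩ := eventually_nhdsSet_iff_exists.1 hφ
  have MO : M ⊆ S.O := fun y hy => ((S.meq y).1 hy).1
  have rt0 : ∀ y ∈ W₀, rt ψ v y = rt S.φ v y := fun y hy =>
    rt_congr (by filter_upwards [o₀.mem_nhds hy] with z hz using e₀ z hz)
  obtain ⟨C, hC0, hC⟩ := exists_C hB hψ (by
    filter_upwards [o₀.mem_nhdsSet.2 m₀, S.op.mem_nhdsSet.2 MO] with y h1 h2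
    rw [rt0 y h1]; exact S.φv y h2)
  have cC := Ct.cpt hB hX sK cK
  have CM : ∀ y ∈ Ct v Φ b K, y ∉ M := by
    rintro y (⟨q, -, rfl⟩ | h)
    exacts [hX.notMem hB q, hB.col_notMem sK h]
  obtain ⟨W₁, n₁, c₁, s₁⟩ := exists_mem_nhdsSet_isClosed_subset (((o₀.inter S.op).inter
    ((hX.cpt (-6) 6).union cC).isClosed.isOpen_compl).mem_nhdsSet.2 fun y hy => ⟨⟨m₀ hy, MO hy⟩,
      fun h => h.elim (fun ⟨q, _, e⟩ => hX.notMem hB q (e ▸ hy)) fun h => CM y h hy⟩) hB.cl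
  have w₁ : ∀ y ∈ W₁, (y ∈ S.O ∧ ψ y = S.φ y ∧ 0 ≤ rt ψ v y ∧ |ar (Φ y)| ≤ -bt 6) ∧ y ∉ col v Φ K :=
    fun y h => ⟨⟨(s₁ h).1.2, e₀ y (s₁ h).1.1, rt0 y (s₁ h).1.1 ▸ S.φv y (s₁ h).1.2,
      (hX.not_slab (by norm_num)).1 fun e => (s₁ h).2
        (.inl (image_mono (prod_mono_right Ioo_subset_Icc_self) e))⟩, fun e => (s₁ h).2 (.inr (.inr e))⟩
  obtain ⟨W₂, n₂, c₂, s₂⟩ := exists_mem_nhdsSet_isClosed_subset
    (isOpen_interior.mem_nhdsSet.2 (subset_interior_iff_mem_nhdsSet.2 n₁)) hB.cl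
  obtain ⟨η, η0, hη⟩ := hS Y o v Φ M hB W₁ n₁ W₂ n₂ (c₂.closure_eq.symm ▸ s₂)
  obtain ⟨W', n', D, Q, cQ, q1, q2⟩ := hCd (W₂ ∩ {y | 1 - η < (Φ y : ℂ).re}) (inter_mem n₂
    ((isOpen_lt continuous_const (Complex.continuous_re.comp cΦ)).mem_nhdsSet.2 fun y hy => by
      simpa [hB.one y hy] using η0))
  have st : ∀ y ∈ W₂ ∩ {y | 1 - η < (Φ y : ℂ).re}, y ∈ W₁ ∧ Stay v Φ y W₁ := fun y hy =>
    ⟨interior_subset (s₂ hy.1), fun T h => hη y hy.1 T fun t ht => hy.2.out.le.trans (h t ht)⟩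
  obtain ⟨ρ, ρ0, N, oN, mN, cN, eN⟩ := S.small (inter_mem n' n₁)
  have m56 := bt_mono (show (5 : ℝ) < 6 by norm_num)
  have z6 := (bt_mem 6).2
  have p5 := c5.2
  -- the feet
  have PF : PP Φ M ⊆ col v Φ (PP Φ M) := fun y hy => mem_col hv hy hy.1
  have fK : ∀ y ∈ col v Φ (PP Φ M), f y ∈ f '' K → y ∈ col v Φ K := fun y hy ⟨z, hz, e⟩ =>
    (ft.colK K sK y).2 ⟨hy, by rw [← e, ft.right z (sK hz)]; exact hz⟩
  have bF : ∀ x, b (x, 5) ∈ col v Φ (PP Φ M) ↔ x ∈ F := fun x => ft.mem x 5 (by norm_num)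
  have fb : ∀ x, f (b (x, 5)) = x := fun x => ft.box x 5 (by norm_num)
  have bK : ∀ x, b (x, 5) ∈ col v Φ K ↔ x ∈ f '' K := fun x => ⟨fun h => by
    obtain ⟨h1, h2⟩ := (ft.colK K sK _).1 h
    rw [fb] at h2
    exact ⟨_, h2, ft.left x ((bF x).1 h1)⟩, fun ⟨y, hy, e⟩ =>
      fK _ ((bF x).2 (e ▸ ft.maps (PF (sK hy)))) ⟨y, hy, e.trans (fb x).symm⟩⟩
  have cf := ft.sm.continuousOn
  have cK' : IsCompact (f '' K) := cK.image_of_continuousOn (cf.mono (sK.trans PF))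
  have cF : IsPreconnected F := by
    convert cP.image f (cf.mono PF) using 1
    exact Subset.antisymm (fun x hx => ⟨_, ft.maps' hx, ft.left x hx⟩) (ft.maps.mono_left PF).image_subset
  have cV : IsPreconnected (F \ f '' K) := by
    convert cPK.image f (cf.mono (sdiff_subset.trans PF)) using 1
    refine Subset.antisymm (fun x hx => ⟨_, ⟨ft.maps' hx.1, fun h => hx.2 ⟨_, h, ft.left x hx.1⟩⟩,
      ft.left x hx.1⟩) ?_
    rintro _ ⟨y, hy, rfl⟩
    exact ⟨ft.maps (PF hy.1), fun ⟨z, hz, e⟩ => hy.2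
      (by rw [← ft.right y hy.1, ← e, ft.right z (sK hz)]; exact hz)⟩
  have aV : ∀ t, a t ∈ F \ f '' K := fun t => by
    obtain ⟨h1, h2⟩ := (ft.colK _ sdiff_subset _).1 (ha t)
    exact ⟨(bF _).1 h1, fun h => h2.2 ((ft.colK K sK _).1 ((bK _).2 h)).2⟩
  have x0 : (0 : ℂ) ∈ Xo δ := .inl ⟨0, by simpa using he.pos⟩
  have eV : ∀ z ∈ Xo δ, e z ∈ univ \ f '' K := fun z hz => ⟨trivial, fun h => (he' z hz).2 ((bK _).2 h)⟩
  -- compact sets
  have PN : ∀ y, Φ y = 1 → y ∈ N ∪ col v Φ (PP Φ M) := fun y h =>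
    (em (y ∈ M)).imp (@mN y) fun h' => PF ⟨h, h'⟩
  obtain ⟨T₀, hT₀⟩ := Hl33.exists_far hX (oN.union ft.opc) PN
  obtain ⟨T, T6, hT⟩ : ∃ T, 6 ≤ T ∧ T₀ ≤ T := ⟨_, le_max_left _ _, le_max_right _ _⟩
  have cA : IsCompact (N ∪ slab b (Ioo (-T) T))ᶜ := (oN.union (hX.box.isOpen_image
    (isOpen_univ.prod isOpen_Ioo))).isClosed_compl.isCompact
  have sA : (N ∪ slab b (Ioo (-T) T))ᶜ ⊆ col v Φ (PP Φ M) := fun y hy => by
    refine Or.resolve_left ?_ fun h => hy (.inl h)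
    by_cases h : Φ y = 1
    · exact PN y h
    obtain ⟨q, rfl⟩ : y ∈ range b := by rw [hX.rg]; exact h
    exact hT₀ q (hT.trans (not_lt.1 fun h => hy (.inr ⟨q, ⟨trivial, abs_lt.1 h⟩, rfl⟩)))
  have sQ : Q ⊆ col v Φ (PP Φ M) := fun y hy => by
    obtain ⟨σ, hσ, h1⟩ := exists_sg (ar (Φ y))
    obtain ⟨-, a1, a2, a3⟩ := q1 y hy
    obtain ⟨t, b1, b2⟩ := S.free hB hσ c₁ (fun y h => (w₁ y h).1.1) (st y a1).2
      ⟨fun _ => a2, fun _ => a3⟩ h1 two_pi_pos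
    have b3 : ar (Φ y) + ag Φ v y t = 0 := by rw [← sg_sg hσ (_ + _), b1, mul_zero]
    exact ⟨t, ⟨by rw [phi_fl' hv hB.smΦ (exp_ar _).symm, b3, Circle.exp_zero], b2 t right_mem_uIcc⟩,
      hB.seg (exp_ar _).symm (by linarith [(w₁ y (st y a1).1).1.2.2.2])
        (by rw [b3, abs_zero]; exact pi_pos)⟩
  have bk := fun {A : Set Y} (hA : IsCompact A) (h : A ⊆ col v Φ (PP Φ M)) =>
    back hB hX hψ (y := id) (x := f) hA continuousOn_id
      (fun y hy => (car y (col_ne hv (h hy))).continuousWithinAt) fun y hy => back_col hB hX ft (h hy)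
  obtain ⟨D₁, d₁, hD₁⟩ := bk cQ sQ
  obtain ⟨D₂, d₂, hD₂⟩ := bk cA sA
  obtain ⟨D₃, d₃, hD₃⟩ := back hB hX hψ (y := b) (θ := fun q => bt q.2) (x := Prod.fst)
    (isCompact_univ.prod (isCompact_Icc (a := -T) (b := T))) cb.continuousOn
    (continuous_bt.comp continuous_snd).continuousOn fun q _ =>
      (box_go hB hX q.1 q.2 5).imp fun _ h => ⟨h.2.1, h.1⟩
  have fQ : f '' Q ⊆ F \ f '' K := by
    rintro _ ⟨y, hy, rfl⟩
    exact ⟨ft.maps (sQ hy), fun h => (w₁ y (st y (q1 y hy).2.1).1).2 (fK y (sQ hy) h)⟩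
  obtain ⟨E₁, hE₁⟩ := band_conn cu (ft.op.sdiff cK'.isClosed) cV hd aV
    (cQ.image_of_continuousOn (cf.mono sQ)) fQ
  obtain ⟨E₂, hE₂⟩ := band_conn cu ft.op cF hd (fun t => (aV t).1)
    (cA.image_of_continuousOn (cf.mono sA)) (ft.maps.mono_left sA).image_subset
  obtain ⟨E₃, hE₃⟩ := band_conn cu isOpen_univ cR hd (fun _ => trivial) isCompact_univ subset_rfl
  obtain ⟨E₄, hE₄⟩ := band_conn cu (isOpen_univ.sdiff cK'.isClosed) (rem cR ft.op cK'.isClosed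
    (ft.maps.mono_left (sK.trans PF)).image_subset (subset_univ _) cV) hd
    (fun t => ⟨trivial, (aV t).2⟩) isCompact_singleton (singleton_subset_iff.2 (eV 0 x0))
  -- the choice of `k`
  have pC : 0 ≤ 2 * π * C := by positivity
  have := le_abs_self D
  have := le_abs_self E₁
  have := le_abs_self E₂
  have := le_abs_self E₃
  have := le_abs_self E₄
  have := abs_nonneg D
  have := abs_nonneg E₁
  have := abs_nonneg E₂
  have := abs_nonneg E₃
  have := abs_nonneg E₄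
  have := pi_le_four
  have := pi_pos
  obtain ⟨A, hA⟩ : ∃ A, A = 2 * π * C + |D| + D₁ + D₂ + D₃ + |E₁| + |E₂| + |E₃| + |E₄| + 20 := ⟨_, rfl⟩
  refine eventually_atTop.1 ?_
  filter_upwards [ev (sub_pos.2 m56) (2 * A), ev (sub_pos.2 (bt_mono (lt_add_one T))) A,
    ev (sub_pos.2 (bt_mono (show (4 : ℝ) < 9 / 2 by norm_num))) (π + C * (bt (9 / 2) - bt 4)),
    ev (sub_pos.2 (bt_mono (show (3 : ℝ) < 4 by norm_num))) (π + C * (bt 4 - bt 3)),
    ev one_pos (C + 1)] with k k1 k2 k3 k4 k5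
  have k0 : (0 : ℝ) < k := by linarith
  have k6 := mul_neg_of_pos_of_neg k0 z6
  have kb : ∀ {s t : ℝ}, s ≤ t → k * bt s ≤ k * bt t := fun h =>
    mul_le_mul_of_nonneg_left (bt_mono.monotone h) k0.le
  have kar : ∀ {x : ℝ}, |x| ≤ -bt 6 → |-(k * x)| ≤ -(k * bt 6) := fun h => by
    rw [abs_neg, abs_mul, abs_of_pos k0, ← mul_neg]; exact mul_le_mul_of_nonneg_left h k0.le
  have sm' : SC (ψ * Φ ^ k) := fun y => (hψ y).mul ((hB.smΦ y).pow k)
  have eM : ∀ y, y ∈ M' ↔ y ∈ M ∧ (ψ * Φ ^ k) y = 1 := fun y => (S.meq' y).trans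
    (and_congr_right fun h => by simp [hB.one y h, e₀ y (m₀ h)])
  have hB' : Bas o v (ψ * Φ ^ k) M' := ⟨hB.ori, hv, sm', by
    rw [Set.ext eM]; exact hB.cl.inter (isClosed_eq sm'.continuous continuous_const), fun y => by
      rw [rt_mul_pow (hψ y) (hB.smΦ y)]; nlinarith [hC y, hB.nn y], fun y hy => by
      rw [rt_mul_pow (hψ y) (hB.smΦ y)]
      by_cases h : y ∈ M
      · nlinarith [S.φs y h hy, rt0 y (m₀ h), hB.nn y]
      · nlinarith [hC y, hB.pos y h], fun y h => ((eM y).1 h).2⟩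
  have eP : PP (ψ * Φ ^ k) M' = {y | (ψ * Φ ^ k) y = 1} ∩ Mᶜ := Set.ext fun y =>
    and_congr_right fun h => not_congr ((eM y).trans (and_iff_left h))
  have MM : ∀ {y}, y ∉ M → y ∉ M' := fun h h' => h ((eM _).1 h').1
  obtain ⟨μ, hμ⟩ : ∃ μ, μ = -(k * bt 5 + k * bt 6) / 2 := ⟨_, rfl⟩
  obtain ⟨r₀, r1, r2⟩ : ∃ r₀, u (a 0) = Circle.exp r₀ ∧ |r₀ - μ| ≤ π :=
    ⟨μ + ar (u (a 0) / Circle.exp μ), by simp [Circle.exp_add, exp_ar], by simpa using abs_ar_le _⟩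
  obtain ⟨m, hm⟩ : ∃ m : ℤ, |2 * π * m + μ| ≤ π := ⟨-round (μ / (2 * π)), by
    have h := mul_le_mul_of_nonneg_left (abs_sub_round (μ / (2 * π))) two_pi_pos.le
    rw [← abs_of_pos two_pi_pos, ← abs_mul, abs_of_pos two_pi_pos, mul_sub,
      mul_div_cancel₀ _ two_pi_pos.ne'] at h
    push_cast
    exact (congrArg abs (by ring)).le.trans (h.trans (by linarith))⟩
  rw [abs_le] at r2 hm
  obtain ⟨h, hcol, hh⟩ := new_col (ψ := ψ) hX he (a := 10) (Nat.cast_pos.1 k0) (m := m) (fun θ hθ => by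
    rw [mem_Ioo, lt_div_iff₀ k0, div_lt_iff₀ k0]
    constructor <;> linarith [(abs_lt.1 hθ).1, (abs_lt.1 hθ).2]) fun z hz s hs =>
      (hu _ s ⟨by linarith [hs.1], hs.2.le⟩).trans (he' z hz).1
  -- the components
  let ι : R × ℝ → Y × ℝ := fun q => (b (q.1, 5), q.2 + k * bt 5)
  have cι : Continuous ι := (cb.comp (continuous_fst.prodMk continuous_const)).prodMk (by fun_prop)
  obtain ⟨G, hG⟩ : ∃ G, G = {y | (ψ * Φ ^ k) y = 1} ∩ (Ct v Φ b K ∪ M)ᶜ := ⟨_, rfl⟩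
  obtain ⟨P, hP⟩ : ∃ P, P = {y | (ψ * Φ ^ k) y = 1} ∩ Mᶜ := ⟨_, rfl⟩
  have GP : G ⊆ P := by rw [hG, hP]; exact fun y h => ⟨h.1, fun h' => h.2 (.inr h')⟩
  have PM : ∀ y ∈ P, y ∉ M' := by rw [hP]; exact fun y h => MM h.2
  have GM : ∀ y ∈ G, y ∉ M' := fun y h => PM y (GP h)
  have z1 : MapsTo ι (Bd u (F \ f '' K) (2 * π * C + k * bt 5) (-(k * bt 5))) (Zs (ψ * Φ ^ k) v G) :=
    fun q hq => hG ▸ a_free hB hX hψ hB' hC0 hC ((u5 _).trans hq.2.1) ((bF _).2 hq.1.1)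
      (fun h => hq.1.2 ((bK _).1 h)) hq.2.2.1 hq.2.2.2
  have z2 : MapsTo ι (Bd u F (2 * π * C + k * bt 5) (-(k * bt 5))) (Zs (ψ * Φ ^ k) v P) :=
    fun q hq => Zs.mono (by rw [hP]; exact fun y h => ⟨h.1, fun h' => h.2 (.inr h')⟩)
      (a_free (K := ∅) hB hX hψ hB' hC0 hC ((u5 _).trans hq.2.1) ((bF _).2 hq.1)
        (fun ⟨_, h, _⟩ => h) hq.2.2.1 hq.2.2.2)
  have z3 : MapsTo ι (Bd u univ (2 * π * C - k * bt (T + 1)) (-(k * bt (-(T + 1))) - 2 * π * C))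
      (Zs (ψ * Φ ^ k) v P) := fun q hq =>
    hP ▸ a_slab hB hX hψ hB' hC0 hC (by linarith) ((u5 _).trans hq.2.1) hq.2.2.1 hq.2.2.2
  have z4 : MapsTo ι (Bd u (univ \ f '' K) (-(k * bt 6)) (-(k * bt 5))) (Zs (ψ * Φ ^ k) v G) :=
    fun q hq => hG ▸ a_sheet hB hX hψ hB' (fun s hs => (hu _ s hs).trans hq.2.1)
      (fun h => hq.1.2 ((bK _).1 h)) hq.2.2.1 hq.2.2.2
  obtain ⟨t₀, b1, b2⟩ := z1 (x := (a 0, r₀)) ⟨aV 0, r1, by dsimp only; linarith, by dsimp only; linarith⟩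
  obtain ⟨y₀, hy₀⟩ : ∃ y₀, y₀ = fl v t₀ (ι (a 0, r₀)).1 := ⟨_, rfl⟩
  have β : ι (a 0, r₀) ∈ Zs (ψ * Φ ^ k) v (connectedComponentIn G y₀) :=
    ⟨t₀, b1, hy₀ ▸ mem_connectedComponentIn (hy₀ ▸ b2)⟩
  have sG := connectedComponentIn_subset G y₀
  have mG := connectedComponentIn_mono y₀ GP
  have near : ∀ y ∈ N, y ∈ P → y ∈ connectedComponentIn G y₀ := fun y hy hy' => by
    rw [hP] at hy'
    have yW := (w₁ y (cN (subset_closure hy)).2).1.2.2.2
    obtain ⟨t, a1, a2, a3, a4⟩ := S.into hB hψ oN (cN.trans inter_subset_right) eN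
      (show -bt 6 < π by linarith) (fun y h => (w₁ y h).1) hy hy'.2 (lift_one hy'.1 (exp_ar _).symm)
      (fun h => by nlinarith) fun h => by nlinarith
    obtain ⟨q, a5, a6⟩ := q2 _ a2 (cN a1).1
    have a7 := abs_le.1 (a3.trans (add_le_add_left (kar yW) 1))
    have a8 : Jd (Zs (ψ * Φ ^ k) v G) _ _ := Jd.image ⟨_, pathComponentIn_subset,
      (isPathConnected_pathComponentIn a6.source_mem).isConnected.2,
      mem_pathComponentIn_self a6.source_mem, a6⟩ (f := fun q => (q.1, q.2 + k * ar (Φ q.1)))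
      (continuousOn_fst.prodMk (continuousOn_snd.add (continuousOn_const.mul fun q hq =>
        ((car _ fun e => by
          have := (w₁ _ (st _ hq.2.1).1).1.2.2.2
          rw [← coe_exp_pi, Circle.coe_inj] at e
          rw [e, show ar (Circle.exp π) = π by rw [ar, coe_exp_pi, Complex.arg_neg_one],
            abs_of_pos pi_pos] at this
          linarith).comp continuousAt_fst).continuousWithinAt))) fun q hq => by
        have c1 := w₁ _ (st _ hq.2.1).1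
        have c2 := abs_le.1 hq.2.2
        refine hG ▸ S.gam hB hX hψ hB' hC0 hC (Nat.cast_pos.1 k0) c₁
          (fun y h => ⟨(w₁ y h).1.1, (w₁ y h).1.2.2.1⟩) hq.1 c1.1.2.1 (st _ hq.2.1).2 c1.2
          (by linarith [c1.1.2.2.2]) ?_
        dsimp only at c2
        have : |q.2| ≤ -(k * bt 6) + 1 + D := abs_le.2 ⟨by linarith, by linarith⟩
        linarith
    obtain ⟨c1, c2, c3⟩ := a6.target_mem
    obtain ⟨r', c4, c5, c6⟩ := hD₁ _ a5 q.2 ((w₁ _ (st _ c2).1).1.2.1.trans c1.2.1)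
    rw [abs_le] at c3 c4
    dsimp only at c3
    have a9 := spread hB' GM a8 (c6 k _ sm' (spread hB' GM ((hE₁ _ _ r₀ r1 (by linarith) (by linarith)
      _ ⟨_, a5, rfl⟩ r' ((u5 _).symm.trans c5) (by linarith) (by linarith)).image cι.continuousOn z1) β))
    refine zs_zero hB' (fun y h => GM y (sG h)) (MM hy'.2) (zs_fl hB' (t := t) ?_)
    convert a9 using 2
    rw [ag_mul_pow hv hψ hB.smΦ, a4]
    ring
  have all : P ⊆ connectedComponentIn P y₀ := fun y hy => by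
    by_cases h1 : y ∈ N
    · exact mG (near y h1 hy)
    refine zs_zero hB' (fun y h => PM y (connectedComponentIn_subset _ _ h)) (PM y hy) ?_
    rw [hP] at hy
    by_cases h2 : y ∈ slab b (Ioo (-T) T)
    · obtain ⟨q, hq, rfl⟩ := h2
      obtain ⟨r', c4, c5, c6⟩ := hD₃ q ⟨trivial, Ioo_subset_Icc_self hq.2⟩ _
        (lift_one hy.1 (hX.ang' q.1 q.2))
      have c7 := kb hq.2.1.le
      have c8 := kb hq.2.2.le
      have c9 := kb (show 6 ≤ T + 1 by linarith)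
      have c10 := kb (show -(T + 1) ≤ 5 by linarith)
      have c11 : k * bt (-(T + 1)) = k * (-bt (T + 1) - 2 * π) := by rw [bt_neg]
      rw [bt_neg] at c7
      rw [abs_le] at c4
      simpa using c6 k _ sm' (spread hB' PM ((hE₃ _ _ r₀ r1 (by linarith) (by linarith) _ trivial r'
        ((u5 _).symm.trans c5) (by linarith) (by linarith)).image cι.continuousOn z3) (Zs.mono mG β))
    · have h3 : y ∈ (N ∪ slab b (Ioo (-T) T))ᶜ := fun h => h.elim h1 h2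
      obtain ⟨r', c4, c5, c6⟩ := hD₂ y h3 _ (lift_one hy.1 (exp_ar _).symm)
      have c7 := abs_le.1 (kar (((hX.not_slab (by linarith)).1 h2).trans
        (neg_le_neg (bt_mono.monotone T6))))
      rw [abs_le] at c4
      dsimp only [id] at c4
      simpa using c6 k _ sm' (spread hB' PM ((hE₂ _ _ r₀ r1 (by linarith) (by linarith) _ ⟨_, h3, rfl⟩
        r' ((u5 _).symm.trans c5) (by linarith) (by linarith)).image cι.continuousOn z2) (Zs.mono mG β))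
  have eK : P \ (P \ connectedComponentIn G y₀) = connectedComponentIn G y₀ :=
    sdiff_sdiff_cancel_left (sG.trans GP)
  refine ⟨P \ connectedComponentIn G y₀, _, hB', IsClosed.isCompact ?_, ?_, ?_, ?_, hU.trans ?_, hcol,
    fun z hz n hn => ?_⟩
  · refine isOpen_compl_iff.1 (isOpen_iff_mem_nhds.2 fun y hy => ?_)
    by_cases h1 : y ∈ N
    · filter_upwards [oN.mem_nhds h1] with z hz h using h.2 (near z hz h.1)
    by_cases h2 : (ψ * Φ ^ k) y = 1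
    · have h3 : y ∈ connectedComponentIn G y₀ := by_contra fun h =>
        hy ⟨hP ▸ ⟨h2, fun h => h1 (mN h)⟩, h⟩
      rw [hG] at h3
      filter_upwards [comp_open hB' (cC.isClosed.union hB.cl).isOpen_compl
        (fun y h => MM fun h' => h (.inr h')) h3] with z hz h using h.2 (hG ▸ hz (hP ▸ h.1).1)
    · filter_upwards [(isOpen_ne_fun sm'.continuous continuous_const).mem_nhds h2] with z hz h
        using hz (hP ▸ h.1).1
  · rw [eP, ← hP]; exact sdiff_subset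
  · rw [eP, ← hP, Subset.antisymm all (connectedComponentIn_subset _ _)]
    exact isPreconnected_connectedComponentIn
  · rw [eP, ← hP, eK]; exact isPreconnected_connectedComponentIn
  · exact ctl hB hX hψ hB' hC0 hC sK (fun y h => ⟨hP ▸ ⟨h.1, CM y h.2⟩,
      fun h' => (hG ▸ sG h').2 (.inl h.2)⟩) (by linarith) (by linarith) (by linarith)
  · rw [eP, ← hP, eK]
    obtain ⟨a1, a2⟩ := hh _ hn
    have a3 := abs_lt.1 hn
    have a4 : Circle.exp (-(2 * π * n + 2 * π * m)) = 1 := by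
      rw [← Circle.exp_zero]; exact Circle.exp_eq_exp.2 ⟨-(n + m), by push_cast; ring⟩
    have a5 : Jd (Bd u (univ \ f '' K) (-(k * bt 6)) (-(k * bt 5))) (e z, -(2 * π * n + 2 * π * m))
        (e 0, -(2 * π * n + 2 * π * m)) := ⟨(fun z => (e z, -(2 * π * n + 2 * π * m))) '' Xo δ, by
      rintro _ ⟨w, hw, rfl⟩
      exact ⟨eV w hw, (he' w hw).1.trans a4.symm, by dsimp only; linarith, by dsimp only; linarith⟩,
      (xo_conn he.pos).image _ ((Hd34.contOn he).prodMk continuousOn_const), ⟨z, hz, rfl⟩, 0, x0, rfl⟩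
    have a6 := spread hB' GM ((a5.trans (hE₄ _ _ r₀ r1 (by linarith) (by linarith) _ rfl _
      ((he' 0 x0).1.trans a4.symm) (by linarith) (by linarith))).image cι.continuousOn z4) β
    obtain ⟨t, c1, c2, c3⟩ := box_go hB hX (e z) (h (2 * π * n)) 5
    have c4 := ag_eq_zero hv hψ (T := t) fun s hs => by
      obtain ⟨r, d1, d2⟩ := c3 s hs
      rw [uIcc_of_ge a1.1.le] at d1
      rw [d2, hu _ r ⟨by linarith [d1.1], d1.2.trans a1.2.le⟩, hu _ _ ⟨by linarith [a1.1], a1.2.le⟩]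
    refine zs_zero hB' (fun y h => GM y (sG h)) (MM (hX.notMem hB _)) (zs_fl hB' (t := t) ?_)
    convert a6 using 2
    rw [ag_mul_pow hv hψ hB.smΦ, c4]
    linear_combination k * c2 - a2

theorem bandStmt : BandStmt := band (Hl33.footStmt Box46.trk) Hl33.slabStmt

end Crest.Agent.X212.Hel40
end
end

-- ▼ part X212/Hat42/Arg
section

/-!
# X212/Hat42/Arg (helper42): the angle on the cut manifold, vertical segments, closed columns
-/

set_option autoImplicit false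
set_option linter.unusedSectionVars false

open Set Filter Topology Function
open scoped ContDiff Manifold
open Crest.Agent.R208.F Crest.Agent.X212.Dr59 Crest.Agent.X212.Int54 Crest.Agent.X212.Cyl58
open Crest.Agent.X212.Sep15 (EE IR CM Box slab px Rg)
open Crest.Agent.X212.Bb31 (Fm)
open Crest.Agent.X212.Flo26 (SmV fl)
open Crest.Agent.X212.Hel40

noncomputable section

namespace Crest.Agent.X212.Hat42

/-- logarithm along a homotopy -/
theorem log_htpy {X : Type*} [TopologicalSpace X] {D : Set X} {H : ℝ × X → Circle}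
    (hH : ContinuousOn H (Icc 0 1 ×ˢ D)) (h0 : ∀ x ∈ D, H (0, x) = 1) :
    ∃ θ : X → ℝ, ContinuousOn θ D ∧ (∀ x ∈ D, Circle.exp (θ x) = H (1, x)) ∧
      ∀ x ∈ D, (∀ s ∈ Icc (0 : ℝ) 1, H (s, x) = 1) → θ x = 0 := by
  classical
  let G : C(unitInterval × D, Circle) := ⟨fun p => H (p.1, p.2),
    hH.comp_continuous (by fun_prop) fun p => ⟨p.1.2, p.2.2⟩⟩
  have cov := Circle.isCoveringMap_exp
  have G0 : ∀ a : D, G (0, a) = Circle.exp ((0 : C(D, ℝ)) a) := fun a =>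
    (h0 a a.2).trans Circle.exp_zero.symm
  let L := cov.liftHomotopy G 0 G0
  have L1 : ∀ p, Circle.exp (L p) = G p := fun p => congrFun (cov.liftHomotopy_lifts G 0 G0) p
  refine ⟨fun x => if h : x ∈ D then L (1, ⟨x, h⟩) else 0, ?_, fun x hx => ?_, fun x hx h => ?_⟩
  · rw [continuousOn_iff_continuous_domRestrict]
    exact (L.continuous.comp (Continuous.prodMk_right 1)).congr fun x => by simp
  · exact (congrArg Circle.exp (dif_pos hx)).trans (L1 _)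
  · refine (dif_pos hx).trans ((cov.const_of_comp (g := fun t => L (t, ⟨x, hx⟩))
      (L.continuous.comp (Continuous.prodMk_left _)) (fun t t' => ?_) 1 0).trans
      (cov.liftHomotopy_zero G 0 G0 _))
    exact (L1 _).trans (((h t t.2).trans (h t' t'.2).symm).trans (L1 (t', ⟨x, hx⟩)).symm)

variable {Y : CM 3} {R : CM 2} {o : Fm 3 Y} {v : Vf Y} {Φ : Y → Circle} {M : Set Y} {oR : Fm 2 R}
  {b : R × ℝ → Y} {y : Y} {T T' : ℝ}

/-- the angle in `(-π, π]` -/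
def ar (Φ : Y → Circle) (y : Y) : ℝ := Complex.arg (Φ y)

theorem exp_ar (y : Y) : Circle.exp (ar Φ y) = Φ y := Circle.exp_arg _

theorem ne_iff : (Φ y : ℂ) ≠ -1 ↔ |ar Φ y| < Real.pi := by
  refine ⟨fun h => abs_lt.2 ⟨Complex.neg_pi_lt_arg _, (Complex.arg_le_pi _).lt_of_ne fun e => h ?_⟩,
    fun h e => ?_⟩
  · rw [← Circle.exp_arg (Φ y), e]
    simp
  · rw [ar, e, Complex.arg_neg_one, abs_of_pos Real.pi_pos] at h
    exact h.false

theorem ar_of {a : ℝ} (h : |a| < Real.pi) (e : Φ y = Circle.exp a) : ar Φ y = a := by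
  rw [ar, e, Circle.arg_exp (abs_lt.1 h).1 (abs_lt.1 h).2.le]

theorem ar_zero : ar Φ y = 0 ↔ Φ y = 1 :=
  ⟨fun h => by rw [← exp_ar (Φ := Φ) y, h, Circle.exp_zero], fun h => by simp [ar, h]⟩

theorem continuous_abs_ar (h : Continuous Φ) : Continuous fun y => |ar Φ y| := by
  refine (Real.continuous_arccos.comp (Complex.continuous_re.comp
    (continuous_subtype_val.comp h))).congr fun y => ?_
  have h1 := Complex.cos_arg (Circle.coe_ne_zero (Φ y))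
  rw [Circle.norm_coe, div_one, ← Real.cos_abs] at h1
  exact (congrArg Real.arccos h1.symm).trans
    (Real.arccos_cos (abs_nonneg _) (Complex.abs_arg_le_pi _))

theorem continuousAt_ar (h : Continuous Φ) (hy : (Φ y : ℂ) ≠ -1) : ContinuousAt (ar Φ) y :=
  (Complex.continuousAt_arg (Complex.mem_slitPlane_iff_arg.2
    ⟨(abs_lt.1 (ne_iff.1 hy)).2.ne, Circle.coe_ne_zero _⟩)).comp
    (f := fun y => (Φ y : ℂ)) (continuous_subtype_val.comp h).continuousAt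

/-- the orbit segment stays in the cut manifold -/
def Av (v : Vf Y) (Φ : Y → Circle) (y : Y) (T : ℝ) : Prop :=
  ∀ t ∈ uIcc 0 T, (Φ (fl v t y) : ℂ) ≠ -1

theorem Av.mono (h : Av v Φ y T) (ht : T' ∈ uIcc 0 T) : Av v Φ y T' := fun t h1 =>
  h t (uIcc_subset_uIcc_left ht h1)

theorem col_ne (B : Bas o v Φ M) {K : Set Y} (h : y ∈ col v Φ K) : (Φ y : ℂ) ≠ -1 := by
  obtain ⟨T, -, h⟩ := h
  simpa only [Flo26.fl_zero B.smv] using h 0 left_mem_uIcc

theorem phi_eq (B : Bas o v Φ M) (y : Y) (t : ℝ) :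
    Φ (fl v t y) = Circle.exp (ar Φ y + ag Φ v y t) := by
  rw [phi_fl B.smv B.smΦ, Circle.exp_add, exp_ar]

theorem Av.ar_eq (B : Bas o v Φ M) (h : Av v Φ y T) : ar Φ (fl v T y) = ar Φ y + ag Φ v y T := by
  have c := fl_cont' B.smv continuous_id (continuous_const (y := y) (X := ℝ))
  refine Circle.isCoveringMap_exp.eqOn_of_comp_eqOn (g₁ := fun t => ar Φ (fl v t y))
    (g₂ := fun t => ar Φ y + ag Φ v y t) (s := uIcc 0 T) isPreconnected_uIcc (fun t ht => ?_)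
    (continuous_const.add ((continuous_ag B.smv B.smΦ).comp (.prodMk_right y))).continuousOn
    (fun t _ => (exp_ar _).trans (phi_eq B y t)) left_mem_uIcc ?_ right_mem_uIcc
  · exact ((continuousAt_ar B.smΦ.continuous (h t ht)).comp (f := fun t => fl v t y)
      c.continuousAt).continuousWithinAt
  · simp only [Flo26.fl_zero B.smv, ag_zero, add_zero]

theorem ag_mem (B : Bas o v Φ M) {t : ℝ} (ht : t ∈ uIcc 0 T) :
    ar Φ y + ag Φ v y t ∈ uIcc (ar Φ y) (ar Φ y + ag Φ v y T) := by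
  have h := (((ag_mono B.smv B.smΦ B.nn y).const_add (ar Φ y)).monotoneOn (uIcc 0 T)).mapsTo_uIcc ht
  simpa only [ag_zero, add_zero] using h

theorem abs_le_of_mem {a c x m : ℝ} (h : x ∈ uIcc a c) (ha : |a| ≤ m) (hc : |c| ≤ m) : |x| ≤ m :=
  abs_le.2 ⟨(le_min (abs_le.1 ha).1 (abs_le.1 hc).1).trans h.1,
    h.2.trans (max_le (abs_le.1 ha).2 (abs_le.1 hc).2)⟩

theorem av_iff (B : Bas o v Φ M) :
    Av v Φ y T ↔ |ar Φ y| < Real.pi ∧ |ar Φ y + ag Φ v y T| < Real.pi := by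
  refine ⟨fun h => ⟨?_, h.ar_eq B ▸ ne_iff.1 (h T right_mem_uIcc)⟩, fun h t ht => ?_⟩
  · simpa only [Flo26.fl_zero B.smv] using ne_iff.1 (h 0 left_mem_uIcc)
  · have h1 := (abs_le_of_mem (ag_mem B ht) (le_max_left _ _) (le_max_right _ _)).trans_lt
      (max_lt h.1 h.2)
    rwa [ne_iff, ar_of h1 (phi_eq B y t)]

theorem Av.seg (B : Bas o v Φ M) (h : Av v Φ y T) {t m : ℝ} (ht : t ∈ uIcc 0 T)
    (h1 : |ar Φ y| ≤ m) (h2 : |ar Φ (fl v T y)| ≤ m) : |ar Φ (fl v t y)| ≤ m := by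
  rw [(h.mono ht).ar_eq B]
  exact abs_le_of_mem (ag_mem B ht) h1 (h.ar_eq B ▸ h2)

theorem fl_neg (B : Bas o v Φ M) (T : ℝ) (y : Y) : fl v (-T) (fl v T y) = y := by
  rw [← fl_add B.smv, neg_add_cancel, Flo26.fl_zero B.smv]

theorem Av.symm (B : Bas o v Φ M) (h : Av v Φ y T) : Av v Φ (fl v T y) (-T) := by
  have h1 := (av_iff B).1 h
  have h2 := ag_add B.smv B.smΦ y (-T) T
  rw [neg_add_cancel, ag_zero] at h2
  rw [av_iff B, h.ar_eq B, add_assoc, ← h2, add_zero]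
  exact h1.symm

theorem Av.trans (B : Bas o v Φ M) (h : Av v Φ y T) (h' : Av v Φ (fl v T y) T') :
    Av v Φ y (T' + T) := by
  rw [av_iff B, ag_add B.smv B.smΦ, ← add_assoc, ← h.ar_eq B]
  exact ⟨((av_iff B).1 h).1, ((av_iff B).1 h').2⟩

theorem not_col (B : Bas o v Φ M) (h : y ∈ M) : y ∉ col v Φ (PP Φ M) := fun ⟨T, h1, h2⟩ => by
  have e := Av.ar_eq B h2
  rw [ar_zero.2 h1.1, ar_zero.2 (B.one y h), zero_add, ← ag_zero (Φ := Φ) (v := v) y] at e
  have s := ag_strict B.smv B.smΦ B.nn (B.pos _ h1.2)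
  rcases lt_trichotomy 0 T with c | rfl | c
  · exact (s.1 0 c).ne e
  · exact h1.2 ((Flo26.fl_zero B.smv y).symm ▸ h)
  · exact (s.2 0 c).ne' e

theorem pp_col (B : Bas o v Φ M) (h : y ∈ PP Φ M) : y ∈ col v Φ (PP Φ M) :=
  ⟨0, (Flo26.fl_zero B.smv y).symm ▸ h, (av_iff B (T := 0)).2 (by
    simpa only [ar_zero.2 h.1, ag_zero, add_zero, abs_zero, and_self] using Real.pi_pos)⟩

/-! ### the box -/

/-- the angle at height `s` -/
def al (s : ℝ) : ℝ := Real.pi - 2 * Real.arctan s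

theorem al_pos (s : ℝ) : 0 < al s := by
  have := Real.arctan_lt_pi_div_two s
  rw [al]
  linarith

theorem al_lt {s s' : ℝ} : al s < al s' ↔ s' < s := by
  rw [al, al, sub_lt_sub_iff_left, mul_lt_mul_iff_right₀ two_pos, Real.arctan_lt_arctan_iff]

theorem al_lt_pi {s : ℝ} (h : 0 < s) : al s < Real.pi := by simpa [al] using h

theorem ar_pos (X : Bx o v Φ oR b) (x : R) {s : ℝ} (h : 0 < s) : ar Φ (b (x, s)) = -al s := by
  refine ar_of (by rw [abs_neg, abs_of_pos (al_pos s)]; exact al_lt_pi h) ?_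
  rw [X.ang, cay, Circle.exp_eq_exp]
  exact ⟨1, by rw [al]; push_cast; ring⟩

theorem ar_neg (X : Bx o v Φ oR b) (x : R) {s : ℝ} (h : s < 0) : ar Φ (b (x, s)) = al (-s) := by
  refine ar_of (by rw [abs_of_pos (al_pos _)]; exact al_lt_pi (neg_pos.2 h)) ?_
  rw [X.ang, cay, al, Real.arctan_neg]
  congr 1
  ring

theorem abs_ar (X : Bx o v Φ oR b) (x : R) {s : ℝ} (h : s ≠ 0) : |ar Φ (b (x, s))| = al |s| := by
  rcases h.lt_or_gt with h | h
  · rw [ar_neg X x h, abs_of_pos (al_pos _), abs_of_neg h]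
  · rw [ar_pos X x h, abs_neg, abs_of_pos (al_pos _), abs_of_pos h]

theorem b_ne (X : Bx o v Φ oR b) {p : R × ℝ} : (Φ (b p) : ℂ) ≠ -1 ↔ p.2 ≠ 0 := by
  rw [X.ang, Ne, cay_eq_neg]

theorem b_pos (B : Bas o v Φ M) (X : Bx o v Φ oR b) (p : R × ℝ) : 0 < rt Φ v (b p) :=
  B.pos _ fun h => cay_ne_one _ ((X.ang p).symm.trans (B.one _ h))

/-- vertical segments of the box are orbit segments -/
theorem vert (trk : TrkStmt) (B : Bas o v Φ M) (X : Bx o v Φ oR b) (x : R) {s s' : ℝ}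
    (h : 0 < s * s') : ∃ T, fl v T (b (x, s)) = b (x, s') ∧ Av v Φ (b (x, s)) T := by
  have sub : uIcc s s' ⊆ Ioo (min s s' - 1) (max s s' + 1) := fun t ht =>
    ⟨by linarith [ht.1], by linarith [ht.2]⟩
  have c : ∀ t : ℝ, ContMDiffAt 𝓘(ℝ, ℝ) (IR 2) ∞ (fun t : ℝ => (x, t)) t := fun t =>
    contMDiffAt_const.prodMk contMDiffAt_id
  obtain ⟨τ, t1, -, t3⟩ := trk Y v (fun t => b (x, t)) _ _ B.smv fun t _ => by
    refine ⟨(X.box.contMDiff _).comp t (c t), fun e => ?_, ?_⟩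
    · have := b_pos B X (x, t)
      rw [rt, e] at this
      exact this.ne' (map_zero _)
    · obtain ⟨g, g0, g1⟩ := X.vert (x, t)
      refine ⟨g, g0, Eq.trans ?_ g1⟩
      rw [show (fun t => b (x, t)) = b ∘ fun t => (x, t) from rfl,
        mf_comp ((X.box.contMDiff _).mdifferentiableAt (by simp)) ((c t).mdifferentiableAt (by simp)),
        mf_prodMk (g := fun t : ℝ => t) mdifferentiableAt_const mdifferentiableAt_id, mf_const]
      exact congrArg (fun w => mf (IR 2) (𝓡 3) b (x, t) (0, w))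
        (congrArg (fun L : ℝ →L[ℝ] ℝ => L 1) (mf_id (I := 𝓘(ℝ, ℝ)) t))
  refine ⟨τ s' - τ s, t3 s (sub left_mem_uIcc) s' (sub right_mem_uIcc), fun t ht => ?_⟩
  obtain ⟨r, r1, r2⟩ := intermediate_value_uIcc ((t1.mono sub).sub (continuousOn_const (c := τ s)))
    (show t ∈ uIcc (τ s - τ s) (τ s' - τ s) by rwa [sub_self])
  rw [← r2, Pi.sub_apply, t3 s (sub left_mem_uIcc) r (sub r1), b_ne X]
  rintro (rfl : r = 0)
  rcases mem_uIcc.1 r1 with c | c <;> nlinarith [c.1, c.2]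

/-- every column meets every height of the box -/
theorem hit (trk : TrkStmt) (B : Bas o v Φ M) (X : Bx o v Φ oR b) (hy : y ∈ col v Φ (PP Φ M))
    {s : ℝ} (hs : s ≠ 0) : ∃ T x, fl v T y = b (x, s) ∧ Av v Φ y T := by
  obtain ⟨T, h1, h2⟩ := hy
  generalize e : fl v T y = p at h1
  have st := ag_strict B.smv B.smΦ B.nn (y := p) (t := 0)
    ((Flo26.fl_zero B.smv p).symm ▸ B.pos p h1.2)
  rw [ag_zero] at st
  have c : Continuous fun r : ℝ => |ag Φ v p (-(r * s))| :=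
    ((continuous_ag B.smv B.smΦ).comp (f := fun r : ℝ => (p, -(r * s))) (by fun_prop)).abs
  obtain ⟨r, r1, r0⟩ := (((c.continuousAt (x := 0)).eventually (gt_mem_nhds (a := Real.pi)
    (by simpa [ag_zero] using Real.pi_pos))).filter_mono (nhdsWithin_le_nhds (s := Ioi 0))).and
    self_mem_nhdsWithin |>.exists
  replace r0 : 0 < r := r0
  have a0 := ar_zero.2 h1.1
  have a1 : Av v Φ p (-(r * s)) := (av_iff B).2 (by
    rw [a0, zero_add, abs_zero]; exact ⟨Real.pi_pos, r1⟩)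
  have a2 := a1.ar_eq B
  rw [a0, zero_add] at a2
  have sg : ag Φ v p (-(r * s)) * s < 0 := by
    rcases hs.lt_or_gt with c | c
    · exact mul_neg_of_pos_of_neg (st.2 _ (neg_pos.2 (mul_neg_of_pos_of_neg r0 c))) c
    · exact mul_neg_of_neg_of_pos (st.1 _ (neg_lt_zero.2 (mul_pos r0 c))) c
  obtain ⟨⟨x, s₀⟩, e1⟩ : fl v (-(r * s)) p ∈ range b := X.rg ▸ fun e => by
    rw [← a2, ar_zero.2 e, zero_mul] at sg
    exact sg.false
  have s0 : s₀ ≠ 0 := (b_ne X (p := (x, s₀))).1 (e1 ▸ a1 _ right_mem_uIcc)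
  obtain ⟨T₁, e2, a3⟩ := vert trk B X x (s := s₀) (s' := s) (by
    rw [← a2, ← e1] at sg
    rcases s0.lt_or_gt with c | c
    · rw [ar_neg X x c] at sg
      exact mul_pos_of_neg_of_neg c (neg_of_mul_neg_right sg (al_pos _).le)
    · rw [ar_pos X x c, neg_mul, neg_lt_zero] at sg
      exact mul_pos c (pos_of_mul_pos_right sg (al_pos _).le))
  rw [e1] at e2 a3
  subst e
  exact ⟨T₁ + -(r * s) + T, x, by rw [fl_add B.smv, fl_add B.smv, e2],
    Av.trans B h2 (a1.trans B a3)⟩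

/-- the columns over a compact set are closed in the cut manifold -/
theorem closed_col (trk : TrkStmt) (B : Bas o v Φ M) (X : Bx o v Φ oR b) {K : Set Y}
    (hK : IsCompact K) (hP : K ⊆ PP Φ M) {α : ℝ} (hα : α < Real.pi) :
    IsClosed {y | y ∈ col v Φ K ∧ |ar Φ y| ≤ α} := by
  have ca : Continuous al := continuous_const.sub (continuous_const.mul Real.continuous_arctan)
  obtain ⟨s, s1, s0⟩ := (((ca.continuousAt (x := 0)).eventually (lt_mem_nhds (a := α)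
    (by simpa [al] using hα))).filter_mono (nhdsWithin_le_nhds (s := Ioi 0))).and
    self_mem_nhdsWithin |>.exists
  replace s0 : 0 < s := s0
  have cg := continuous_ag B.smv B.smΦ
  have mo := ag_mono B.smv B.smΦ B.nn
  obtain ⟨n, hn⟩ := hK.elim_directed_cover
    (fun n : ℕ => {k | α < ag Φ v k n ∧ ag Φ v k (-n) < -α})
    (fun n => (isOpen_lt continuous_const (cg.comp (.prodMk_left _))).inter
      (isOpen_lt (cg.comp (.prodMk_left _)) continuous_const)) (fun k hk => by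
      obtain ⟨T₁, x₁, e₁, a₁⟩ := hit trk B X (pp_col B (hP hk)) (neg_ne_zero.2 s0.ne')
      obtain ⟨T₂, x₂, e₂, a₂⟩ := hit trk B X (pp_col B (hP hk)) s0.ne'
      have f₁ := a₁.ar_eq B
      have f₂ := a₂.ar_eq B
      rw [e₁, ar_neg X _ (neg_lt_zero.2 s0), neg_neg, ar_zero.2 (hP hk).1, zero_add] at f₁
      rw [e₂, ar_pos X _ s0, ar_zero.2 (hP hk).1, zero_add] at f₂
      obtain ⟨n, hn⟩ := exists_nat_ge (max T₁ (-T₂))
      exact mem_iUnion.2 ⟨n, (s1.trans_eq f₁).trans_le (mo k ((le_max_left _ _).trans hn)),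
        ((mo k (neg_le.1 ((le_max_right _ _).trans hn))).trans_eq f₂.symm).trans_lt
          (neg_lt_neg s1)⟩)
    (directed_of_isDirected_le fun m n hmn k hk => ⟨hk.1.trans_le (mo k (Nat.cast_le.2 hmn)),
      (mo k (neg_le_neg (Nat.cast_le.2 hmn))).trans_lt hk.2⟩)
  have cp : IsCompact ((Icc (-(n : ℝ)) n ×ˢ K) ∩ {p : ℝ × Y | |ag Φ v p.2 p.1| ≤ α}) :=
    (isCompact_Icc.prod hK).inter_right
      (isClosed_le (cg.comp continuous_swap).abs continuous_const)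
  convert (cp.image (fl_cont B.smv)).isClosed using 1
  ext y
  constructor
  · rintro ⟨⟨T, h1, h2⟩, h3⟩
    have a := (Av.symm B h2).ar_eq B
    rw [fl_neg B, ar_zero.2 (hP h1).1, zero_add] at a
    rw [a, abs_le] at h3
    exact ⟨(-T, fl v T y), ⟨⟨⟨not_lt.1 fun c => ((mo _ c.le).trans_lt (hn h1).2).not_ge h3.1,
      not_lt.1 fun c => ((hn h1).1.trans_le (mo _ c.le)).not_ge h3.2⟩, h1⟩, abs_le.2 h3⟩,
      fl_neg B T y⟩
  · rintro ⟨⟨t, k⟩, ⟨⟨-, h1⟩, h2⟩, rfl⟩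
    have a0 := ar_zero.2 (hP h1).1
    have a : Av v Φ k t := (av_iff B).2 (by
      rw [a0, zero_add, abs_zero]; exact ⟨Real.pi_pos, h2.trans_lt hα⟩)
    refine ⟨⟨-t, (fl_neg B t k).symm ▸ h1, a.symm B⟩, ?_⟩
    rw [a.ar_eq B, a0, zero_add]
    exact h2

end Crest.Agent.X212.Hat42
end
end

-- ▼ part X212/Hat42/Main
section

/-!
# X212/Hat42/Main (helper42): PHIHAT, the cutting function extends over the cut manifold
-/

set_option autoImplicit false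
set_option linter.unusedSectionVars false

open Set Filter Topology Function
open scoped ContDiff Manifold
open Crest.Agent.R208.F Crest.Agent.X212.Dr59 Crest.Agent.X212.Int54 Crest.Agent.X212.Cyl58
open Crest.Agent.X212.Sep15 (EE IR CM Box slab px Rg)
open Crest.Agent.X212.Bb31 (Fm)
open Crest.Agent.X212.Flo26 (SmV fl)
open Crest.Agent.X212.Line51 (CSm)
open Crest.Agent.X212.Hel40

noncomputable section

namespace Crest.Agent.X212.Hat42

/-! ### the vertical retraction -/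

/-- smooth `max a s` -/
def rp (a s : ℝ) : ℝ := a + (s - a) * Real.smoothTransition (s - a)

/-- the odd version -/
def rr (a s : ℝ) : ℝ := if 0 < s then rp a s else -rp a (-s)

variable {a s : ℝ}

theorem rp_lo (h : s ≤ a) : rp a s = a := by
  rw [rp, Real.smoothTransition.zero_of_nonpos (sub_nonpos.2 h), mul_zero, add_zero]

theorem rp_hi (h : a + 1 ≤ s) : rp a s = s := by
  rw [rp, Real.smoothTransition.one_of_one_le (le_sub_iff_add_le'.2 h), mul_one, add_sub_cancel]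

theorem rp_ge (a s : ℝ) : a ≤ rp a s := (le_total s a).elim (fun h => (rp_lo h).ge) fun h =>
  le_add_of_nonneg_right (mul_nonneg (sub_nonneg.2 h) (Real.smoothTransition.nonneg _))

theorem cd_rp : ContDiff ℝ ∞ (rp a) :=
  contDiff_const.add ((contDiff_id.sub contDiff_const).mul
    (Real.smoothTransition.contDiff.comp (contDiff_id.sub contDiff_const)))

theorem cd_rr (h : s ≠ 0) : ContDiffAt ℝ ∞ (rr a) s := by
  rcases h.lt_or_gt with h | h
  · refine ((cd_rp (a := a)).comp contDiff_neg).neg.contDiffAt.congr_of_eventuallyEq ?_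
    filter_upwards [gt_mem_nhds h] with t ht using if_neg ht.not_gt
  · refine (cd_rp (a := a)).contDiffAt.congr_of_eventuallyEq ?_
    filter_upwards [lt_mem_nhds h] with t ht using if_pos ht

theorem rr_sg (ha : 0 < a) (h : s ≠ 0) : 0 < s * rr a s ∧ |rr a s| = rp a |s| := by
  rcases h.lt_or_gt with h | h
  · have := ha.trans_le (rp_ge a (-s))
    rw [rr, if_neg h.not_gt, abs_neg, abs_of_pos this, abs_of_neg h]
    exact ⟨mul_pos_of_neg_of_neg h (neg_lt_zero.2 this), rfl⟩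
  · have := ha.trans_le (rp_ge a s)
    rw [rr, if_pos h, abs_of_pos this, abs_of_pos h]
    exact ⟨mul_pos h this, rfl⟩

theorem rr_hi (h : a + 1 ≤ |s|) : rr a s = s := by
  rw [rr]
  split_ifs with c
  · exact rp_hi (abs_of_pos c ▸ h)
  · rw [rp_hi (abs_of_nonpos (not_lt.1 c) ▸ h), neg_neg]

variable {Y : CM 3} {R : CM 2} {o : Fm 3 Y} {v : Vf Y} {Φ : Y → Circle} {M M' : Set Y}
  {oR : Fm 2 R} {b : R × ℝ → Y} {F N : Set R} {f : Y → R} {π : R → Y} {y : Y}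

/-- the retraction of the cut manifold -/
def ro (b : R × ℝ → Y) (a : ℝ) : Y → Y := extend b (fun p => b (p.1, rr a p.2)) id

theorem ro_b (X : Bx o v Φ oR b) (p : R × ℝ) : ro b a (b p) = b (p.1, rr a p.2) :=
  X.box.inj.extend_apply _ _ p

theorem ro_id (X : Bx o v Φ oR b) (ha : 0 < a) (h : |ar Φ y| ≤ al (a + 1)) : ro b a y = y := by
  by_cases c : ∃ p, b p = y
  · obtain ⟨⟨x, s⟩, rfl⟩ := c
    have s0 : s ≠ 0 := (b_ne X (p := (x, s))).1 (ne_iff.2 (h.trans_lt (al_lt_pi (by linarith))))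
    rw [abs_ar X x s0] at h
    rw [ro_b X, rr_hi (not_lt.1 fun c => (al_lt.2 c).not_ge h)]
  · exact extend_apply' _ _ _ c

theorem ar_off (X : Bx o v Φ oR b) (h : ¬∃ p, b p = y) : ar Φ y = 0 :=
  ar_zero.2 (not_not.1 fun c => h (X.rg.ge c))

theorem ro_near (B : Bas o v Φ M) (X : Bx o v Φ oR b) (ha : 0 < a) (h : ar Φ y = 0) :
    ∀ᶠ z in 𝓝 y, ro b a z = z := by
  filter_upwards [(continuous_abs_ar B.smΦ.continuous).continuousAt.eventually
    (gt_mem_nhds (a := al (a + 1)) (by simpa only [h, abs_zero] using al_pos _))] with z hz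
  exact ro_id X ha hz.le

theorem ro_sm (B : Bas o v Φ M) (X : Bx o v Φ oR b) (ha : 0 < a) (h : (Φ y : ℂ) ≠ -1) :
    ContMDiffAt (𝓡 3) (𝓡 3) ∞ (ro b a) y := by
  by_cases c : ∃ p, b p = y
  · obtain ⟨p, rfl⟩ := c
    rw [← X.box.contMDiffAt_iff, show ro b a ∘ b = _ from funext (ro_b X)]
    exact (X.box.contMDiff _).comp p (contMDiffAt_fst.prodMk
      ((cd_rr ((b_ne X).1 h)).contMDiffAt.comp p contMDiffAt_snd))
  · exact contMDiffAt_id.congr_of_eventuallyEq (ro_near B X ha (ar_off X c))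

theorem ro_ar (X : Bx o v Φ oR b) (ha : 0 < a) (h : (Φ y : ℂ) ≠ -1) :
    |ar Φ (ro b a y)| < al (a - 1) := by
  by_cases c : ∃ p, b p = y
  · obtain ⟨p, rfl⟩ := c
    have h1 := rr_sg ha ((b_ne X).1 h)
    rw [ro_b X, abs_ar X _ (right_ne_zero_of_mul h1.1.ne'), h1.2, al_lt]
    linarith [rp_ge a |p.2|]
  · rw [ro, extend_apply' _ _ _ c, id, ar_off X c, abs_zero]
    exact al_pos _

theorem ro_col (trk : TrkStmt) (B : Bas o v Φ M) (X : Bx o v Φ oR b) (T : Ft v Φ M b 1 F f π)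
    (ha : 0 < a) (h : y ∈ col v Φ (PP Φ M)) :
    ro b a y ∈ col v Φ (PP Φ M) ∧ f (ro b a y) = f y := by
  by_cases c : ∃ p, b p = y
  · obtain ⟨p, rfl⟩ := c
    obtain ⟨t, e, h1⟩ := vert trk B X p.1 (rr_sg ha ((b_ne X).1 (col_ne B h))).1
    rw [ro_b X, ← e]
    exact T.flow _ h t h1
  · rw [ro, extend_apply' _ _ _ c]
    exact ⟨h, rfl⟩

/-! ### the logarithm along the columns -/

/-- the part of the columns over `N` near the level `1` -/
def DD (v : Vf Y) (Φ : Y → Circle) (M : Set Y) (f : Y → R) (N : Set R) (a : ℝ) : Set Y :=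
  {y | y ∈ col v Φ (PP Φ M) ∧ |ar Φ y| < al (a - 1) ∧ f y ∈ N}

theorem theta (trk : TrkStmt) (B : Bas o v Φ M) (X : Bx o v Φ oR b) (S : Pre v M M')
    (T : Ft v Φ M b 1 F f π) (ha : 0 < a)
    (hO : ∀ y, |ar Φ y| ≤ al (a - 1) → (y ∈ col v Φ (PP Φ M) → f y ∈ N) → y ∈ S.O) :
    ∃ θ : Y → ℝ, ContinuousOn θ (DD v Φ M f N a) ∧
      (∀ y ∈ DD v Φ M f N a, S.φ (b (f y, a)) * Circle.exp (θ y) = S.φ y) ∧
      ∀ x ∈ F, x ∈ N → θ (b (x, a)) = 0 := by
  have a1 : 0 < 1 * a := by rwa [one_mul]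
  have h1 : ∀ y ∈ col v Φ (PP Φ M), ∃ t, fl v t y = b (f y, a) ∧ Av v Φ y t := fun y hy => by
    obtain ⟨t, x, e, h⟩ := hit trk B X hy ha.ne'
    refine ⟨t, ?_, h⟩
    rw [← (T.flow y hy t h).2, e, T.box x a a1]
  choose! τ τ1 τ2 using h1
  have cr : ∀ y ∈ col v Φ (PP Φ M), Crs (fun y t => ar Φ y + ag Φ v y t + al a) y (τ y) :=
    fun y hy => by
      have e := (τ2 y hy).ar_eq B
      rw [τ1 y hy, ar_pos X _ ha] at e
      have st := ag_strict B.smv B.smΦ B.nn ((τ1 y hy).symm ▸ b_pos B X (f y, a))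
      exact ⟨fun s hs => by linarith [st.1 s hs], fun s hs => by linarith [st.2 s hs]⟩
  have τc : ContinuousOn τ (col v Φ (PP Φ M)) := continuousOn_crs (fun t y hy =>
    (((continuousAt_ar B.smΦ.continuous (col_ne B hy)).add ((continuous_ag B.smv B.smΦ).comp
      (.prodMk_left t)).continuousAt).add continuousAt_const).continuousWithinAt) cr
  have lt : al a < al (a - 1) := al_lt.2 (sub_one_lt a)
  have Gc : ContinuousOn (fun p : ℝ × Y => S.φ (fl v ((1 - p.1) * τ p.2) p.2))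
      (Icc 0 1 ×ˢ DD v Φ M f N a) := by
    refine S.sφ.continuousOn.comp ((fl_cont B.smv).comp_continuousOn
      (((continuousOn_const.sub continuousOn_fst).mul
        (τc.comp continuousOn_snd fun p hp => hp.2.1)).prodMk continuousOn_snd)) fun p hp => ?_
    have m : (1 - p.1) * τ p.2 ∈ uIcc 0 (τ p.2) := by
      have := hp.1.1
      have := hp.1.2
      rcases le_total 0 (τ p.2) with c | c
      · exact mem_uIcc_of_le (by nlinarith) (by nlinarith)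
      · exact mem_uIcc_of_ge (by nlinarith) (by nlinarith)
    refine hO _ ((τ2 _ hp.2.1).seg B m hp.2.2.1.le ?_) fun _ => ?_
    · rw [τ1 _ hp.2.1, abs_ar X _ ha.ne', abs_of_pos ha]
      exact lt.le
    · rw [(T.flow _ hp.2.1 _ ((τ2 _ hp.2.1).mono m)).2]
      exact hp.2.2.2
  obtain ⟨θ, c, e, z⟩ := log_htpy (H := fun p : ℝ × Y => S.φ (fl v ((1 - p.1) * τ p.2) p.2) /
    S.φ (fl v ((1 - 0) * τ p.2) p.2)) (Gc.div' (Gc.comp (f := fun p : ℝ × Y => ((0 : ℝ), p.2))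
      (by fun_prop) fun p hp => ⟨left_mem_Icc.2 zero_le_one, hp.2⟩)) fun _ _ => div_self' _
  refine ⟨θ, c, fun y hy => ?_, fun x hx hN => ?_⟩
  · rw [e y hy]
    simp only [sub_self, zero_mul, sub_zero, one_mul, Flo26.fl_zero B.smv, τ1 y hy.1,
      mul_div_cancel]
  · have m := (T.mem x a a1).2 hx
    have t0 : τ (b (x, a)) = 0 := by
      have e0 : ar Φ (b (x, a)) + ag Φ v (b (x, a)) 0 + al a = 0 := by
        rw [ar_pos X x ha, ag_zero, add_zero, neg_add_cancel]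
      exact le_antisymm (not_lt.1 fun c => ((cr _ m).1 0 c).ne e0)
        (not_lt.1 fun c => ((cr _ m).2 0 c).ne' e0)
    refine z _ ⟨m, ?_, (T.box x a a1).symm ▸ hN⟩ fun s _ => ?_
    · rwa [abs_ar X x ha.ne', abs_of_pos ha]
    · simp only [t0, mul_zero, div_self']

/-! ### the extension -/

theorem core (trk : TrkStmt) (B : Bas o v Φ M) (X : Bx o v Φ oR b) (S : Pre v M M')
    (T : Ft v Φ M b 1 F f π) (ha : 8 ≤ a) (hN : IsOpen N) (hF : Fᶜ ⊆ N)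
    (hO : ∀ y, |ar Φ y| ≤ al (a - 1) → (y ∈ col v Φ (PP Φ M) → f y ∈ N) → y ∈ S.O)
    {θ : Y → ℝ} {d w : R → Circle} (hd : SC d) (hw : SC w) (d1 : ∀ x ∈ N, d x = 1)
    (w1 : ∀ x ∉ F, w x = S.φ (b (x, a))) (θc : ContinuousOn θ (DD v Φ M f N a))
    (θe : ∀ y ∈ DD v Φ M f N a, w (f y) * Circle.exp (θ y) = S.φ y)
    (θ0 : ∀ x ∈ F, x ∈ N → θ (b (x, a)) = 0) :
    ∃ (ψ : Y → Circle) (um : R → Circle), SC um ∧
      ContMDiffOn (𝓡 3) (𝓡 1) ∞ ψ {y | (Φ y : ℂ) ≠ -1} ∧ (∀ᶠ y in 𝓝ˢ M, ψ y = S.φ y) ∧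
      (∀ x, ∀ s ∈ Ioc (0 : ℝ) 7, ψ (b (x, s)) = d x * w x ∧ ψ (b (x, -s)) = um x) ∧
      ∀ x, w x = 1 → (x ∉ N ∨ ∀ y, θ y = 0) → ∀ y ∈ col v Φ (PP Φ M), f y = x → ψ y = d x := by
  classical
  have a0 : 0 < a := by linarith
  have a1 : 0 < 1 * a := by rwa [one_mul]
  have ca := continuous_abs_ar B.smΦ.continuous
  obtain ⟨χ, χ0, χ1, -⟩ := exists_contMDiffMap_zero_one_nhds_of_isClosed (𝓡 2) (n := ⊤)
    hN.isClosed_compl T.op.isClosed_compl (disjoint_compl_left_iff_subset.2 hF)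
  let ψ : Y → Circle := fun y => if y ∈ col v Φ (PP Φ M) then
    d (f y) * w (f y) * Circle.exp (χ (f y) * θ y) else S.φ y
  have nr : ∀ y ∉ col v Φ (PP Φ M), |ar Φ y| < al (a - 1) → ∀ᶠ z in 𝓝 y, ψ z = S.φ z := by
    intro y hy h
    have o1 : IsOpen (N ∩ interior {x | χ x = 1}) := hN.inter isOpen_interior
    have s1 : (N ∩ interior {x | χ x = 1})ᶜ ⊆ F := compl_subset_comm.1 fun x hx =>
      ⟨hF hx, subset_interior_iff_mem_nhdsSet.2 χ1 hx⟩
    have s2 : π '' (N ∩ interior {x | χ x = 1})ᶜ ⊆ PP Φ M := (T.maps'.mono_left s1).image_subset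
    have cl := closed_col trk B X (o1.isClosed_compl.isCompact.image_of_continuousOn
      (T.cont.mono s1)) s2 (al_lt_pi (s := a - 1) (by linarith))
    filter_upwards [cl.isOpen_compl.mem_nhds fun c => hy ((T.colK _ s2 y).1 c.1).1,
      ca.continuousAt.eventually (gt_mem_nhds h)] with z z1 z2
    by_cases c : z ∈ col v Φ (PP Φ M)
    · have m : f z ∈ N ∩ interior {x | χ x = 1} := not_not.1 fun c' =>
        z1 ⟨(T.colK _ s2 z).2 ⟨c, mem_image_of_mem _ c'⟩, z2.le⟩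
      rw [← θe z ⟨c, z2, m.1⟩]
      simp only [ψ, if_pos c, d1 _ m.1, mem_ofPred.1 (interior_subset m.2), one_mul]
    · exact if_neg c
  have sm : ∀ y, |ar Φ y| < al (a - 1) → CSm (𝓡 3) ψ y := fun y h => by
    by_cases c : y ∈ col v Φ (PP Φ M)
    · have c1 := T.opc.mem_nhds c
      have sf := T.sm.contMDiffAt c1
      have sw : CSm (𝓡 3) (fun z => w (f z)) y := (hw _).comp y sf
      have e : ContMDiffAt (𝓡 3) 𝓘(ℝ, ℝ) ∞ (fun z => χ (f z) * θ z) y := by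
        by_cases c2 : f y ∈ N
        · have c3 : DD v Φ M f N a ∈ 𝓝 y := inter_mem c1 (inter_mem
            (ca.continuousAt.eventually (gt_mem_nhds h)) (sf.continuousAt (hN.mem_nhds c2)))
          refine ((χ.contMDiff _).comp y sf).mul (contMDiffAt_log (θc.continuousAt c3) ?_)
          refine ContMDiffAt.congr_of_eventuallyEq (sw.inv.mul (S.sφ.contMDiffAt
            (S.op.mem_nhds (hO y h.le fun _ => c2)))) ?_
          filter_upwards [c3] with z hz using eq_inv_mul_of_mul_eq (θe z hz)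
        · refine (contMDiffAt_const (c := (0 : ℝ))).congr_of_eventuallyEq ?_
          filter_upwards [sf.continuousAt (mem_nhdsSet_iff_forall.1 χ0 _ c2)] with z hz
          exact mul_eq_zero_of_left hz _
      refine ContMDiffAt.congr_of_eventuallyEq (CSm.mul (CSm.mul (g := fun z => d (f z))
        ((hd _).comp y sf) sw) (csm_exp e)) ?_
      filter_upwards [c1] with z hz using if_pos hz
    · exact (S.sφ.contMDiffAt (S.op.mem_nhds (hO y h.le fun c' => absurd c' c))).congr_of_eventuallyEq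
        (nr y c h)
  have lo : ∀ s ∈ Ioc (0 : ℝ) 7, rp a s = a := fun s hs => rp_lo (by linarith [hs.2])
  refine ⟨ψ ∘ ro b a, fun x => ψ (b (x, -a)), fun x => ?_, fun y hy => ?_,
    mem_nhdsSet_iff_forall.2 fun y hy => ?_, fun x s hs => ⟨?_, ?_⟩, fun x h1 h2 y hy e => ?_⟩
  · refine (sm _ ?_).comp x ((X.box.contMDiff _).comp x (contMDiffAt_id.prodMk contMDiffAt_const))
    rw [abs_ar X x (neg_ne_zero.2 a0.ne'), abs_neg, abs_of_pos a0]
    exact al_lt.2 (sub_one_lt a)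
  · exact ((sm _ (ro_ar X a0 hy)).comp y (ro_sm B X a0 hy)).contMDiffWithinAt
  · have z := ar_zero.2 (B.one y hy)
    filter_upwards [ro_near B X a0 z, nr y (not_col B hy) (by rw [z, abs_zero]; exact al_pos _)]
      with z z1 z2
    rw [comp_apply, z1, z2]
  · rw [comp_apply, ro_b X, rr, if_pos hs.1, lo s hs]
    by_cases c : x ∈ F
    · have e : χ x * θ (b (x, a)) = 0 := (em (x ∈ N)).elim
        (fun c' => mul_eq_zero_of_right _ (θ0 x c c'))
        fun c' => mul_eq_zero_of_left (χ0.self_of_nhdsSet x c') _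
      simp only [ψ, if_pos ((T.mem x a a1).2 c), T.box x a a1, e, Circle.exp_zero, mul_one]
    · simp only [ψ, if_neg fun c' => c ((T.mem x a a1).1 c'), d1 x (hF c), w1 x c, one_mul]
  · rw [comp_apply, ro_b X, rr, if_neg (neg_nonpos.2 hs.1.le).not_gt, neg_neg, lo s hs]
  · have m := ro_col trk B X T a0 hy
    have z : χ x * θ (ro b a y) = 0 := h2.elim
      (fun c' => mul_eq_zero_of_left (χ0.self_of_nhdsSet x c') _)
      fun c' => mul_eq_zero_of_right _ (c' _)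
    simp only [comp_apply, ψ, if_pos m.1, m.2, e, h1, z, Circle.exp_zero, mul_one]

/-- **PHIHAT** -/
theorem hat (trk : TrkStmt) (ext : ExtStmt) : HatStmt := by
  classical
  intro Y R o v Φ M M' oR b S F f π C d B X T hC hc hd d1
  have ca := continuous_abs_ar B.smΦ.continuous
  obtain ⟨η, η0, hη⟩ := (S.op.union T.opc).isClosed_compl.isCompact.exists_forall_le'
    ca.continuousOn (a := 0) fun y hy => abs_pos.2 fun e => hy ((em (y ∈ M)).elim
      (fun c => .inl ((S.meq y).1 c).1) fun c => .inr (pp_col B ⟨ar_zero.1 e, c⟩))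
  have tl : Tendsto (fun a : ℝ => al (a - 1)) atTop (𝓝 (Real.pi - 2 * (Real.pi / 2))) :=
    tendsto_const_nhds.sub (((Real.tendsto_arctan_atTop.mono_right nhdsWithin_le_nhds).comp
      (tendsto_atTop_add_const_right _ (-1) tendsto_id)).const_mul 2)
  obtain ⟨a, ha, a8⟩ := ((tl.eventually (gt_mem_nhds (a := η) (by linarith))).and
    (eventually_ge_atTop 8)).exists
  have a0 : 0 < a := by linarith
  have a1 : 0 < 1 * a := by rwa [one_mul]
  have k1 : {y | |ar Φ y| ≤ al (a - 1)} ∩ S.Oᶜ ⊆ col v Φ (PP Φ M) := fun y hy =>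
    not_not.1 fun c => (ha.trans_le (hη y fun c' => c'.elim hy.2 c)).not_ge hy.1
  obtain ⟨N, hN, hF, dN, hO⟩ : ∃ N : Set R, IsOpen N ∧ Fᶜ ⊆ N ∧ (∀ x ∈ N, d x = 1) ∧
      ∀ y, |ar Φ y| ≤ al (a - 1) → (y ∈ col v Φ (PP Φ M) → f y ∈ N) → y ∈ S.O :=
    ⟨(f '' ({y | |ar Φ y| ≤ al (a - 1)} ∩ S.Oᶜ))ᶜ ∩ interior {x | d x = 1},
      (((isClosed_le ca continuous_const).inter S.op.isClosed_compl).isCompact.image_of_continuousOn
        (T.sm.continuousOn.mono k1)).isClosed.isOpen_compl.inter isOpen_interior,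
      fun x hx => ⟨fun ⟨y, h, e⟩ => hx (e ▸ T.maps (k1 h)), subset_interior_iff_mem_nhdsSet.2 d1 hx⟩,
      fun x hx => interior_subset (s := {x | d x = 1}) hx.2,
      fun y h1 h2 => not_not.1 fun c => (h2 (k1 ⟨h1, c⟩)).1 ⟨y, ⟨h1, c⟩, rfl⟩⟩
  rcases hc with ⟨hCF, hc⟩ | hc
  · obtain ⟨U, V, oU, oV, sU, sV, dj⟩ := normal_separation T.op.isClosed_compl hC
      (disjoint_compl_left_iff_subset.2 hCF)
    have su : ∀ x ∈ N, CSm (𝓡 2) (fun x => S.φ (b (x, a))) x := fun x hx => by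
      refine (S.sφ.contMDiffAt (S.op.mem_nhds (hO _ ?_ fun _ => (T.box x a a1).symm ▸ hx))).comp x
        ((X.box.contMDiff _).comp x (contMDiffAt_id.prodMk contMDiffAt_const))
      rw [abs_ar X x a0.ne', abs_of_pos a0]
      exact (al_lt.2 (sub_one_lt a)).le
    obtain ⟨w, hw, e⟩ := ext R oR (F \ C) (N ∩ U ∪ V) (fun x => if x ∈ U then S.φ (b (x, a)) else 1)
      X.ori (T.op.sdiff hC) hc ((hN.inter oU).union oV)
      (fun x hx => (em (x ∈ F)).elim (fun c => .inr (sV (not_not.1 fun c' => hx ⟨c, c'⟩)))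
        fun c => .inl ⟨hF c, sU c⟩) fun x hx => ContMDiffAt.contMDiffWithinAt (by
      rcases hx with hx | hx
      · refine (su x hx.1).congr_of_eventuallyEq ?_
        filter_upwards [oU.mem_nhds hx.2] with z hz using if_pos hz
      · refine (contMDiffAt_const (c := (1 : Circle))).congr_of_eventuallyEq ?_
        filter_upwards [oV.mem_nhds hx] with z hz using if_neg (dj.notMem_of_mem_right hz))
    have sF : Fᶜ ⊆ N ∩ U ∩ interior {x | w x = if x ∈ U then S.φ (b (x, a)) else 1} := fun x hx =>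
      ⟨⟨hF hx, sU hx⟩, subset_interior_iff_mem_nhdsSet.2 e fun c => hx c.1⟩
    have w1 : ∀ x ∈ N ∩ U ∩ interior {x | w x = if x ∈ U then S.φ (b (x, a)) else 1},
        w x = S.φ (b (x, a)) := fun x hx => (interior_subset hx.2).trans (if_pos hx.1.2)
    have hO' := fun y h1 (h2 : y ∈ col v Φ (PP Φ M) → f y ∈
      N ∩ U ∩ interior {x | w x = if x ∈ U then S.φ (b (x, a)) else 1}) =>
        hO y h1 fun c => (h2 c).1.1
    obtain ⟨θ, θc, θe, θ0⟩ := theta trk B X S T a0 hO'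
    obtain ⟨ψ, um, p1, p2, p3, p4, p5⟩ := core trk B X S T a8 ((hN.inter oU).inter isOpen_interior)
      sF hO' hd hw (fun x hx => dN x hx.1.1) (fun x hx => w1 x (sF hx)) θc
      (fun y hy => (w1 _ hy.2.2).symm ▸ θe y hy) θ0
    have nC : ∀ᶠ x in 𝓝ˢ C, w x = 1 ∧ x ∉ U := by
      filter_upwards [nhdsSet_mono (fun x hx c => c.2 hx : C ⊆ (F \ C)ᶜ) e,
        oV.mem_nhdsSet.2 sV] with x h1 h2
      have := dj.notMem_of_mem_right h2
      exact ⟨h1.trans (if_neg this), this⟩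
    exact ⟨ψ, w, um, hw, p1, nC.mono fun x h => h.1, p2, p3, p4,
      nC.mono fun x h => p5 x h.1 (.inl fun c => h.2 c.1.2)⟩
  · obtain ⟨ψ, um, p1, p2, p3, p4, p5⟩ := core trk B X S T a8 hN hF hO (θ := fun _ => 0)
      (w := fun _ => 1) hd contMDiff_const dN (fun x _ => (hc _).symm) continuousOn_const
      (fun y _ => by rw [hc, Circle.exp_zero, mul_one]) fun _ _ _ => rfl
    exact ⟨ψ, fun _ => 1, um, contMDiff_const, p1, .of_forall fun _ => rfl, p2, p3, p4,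
      .of_forall fun x => p5 x rfl (.inr fun _ => rfl)⟩

end Crest.Agent.X212.Hat42
end
end

-- ▼ part X212/Lsf39/Ext
section

/-!
# X212 / Lsf39 / Ext (helper39): extension of circle maps over a connected part of a surface

* `exists_smooth` : relative smoothing of a nowhere vanishing function;
* `ix_zero` : a single vortex on a closed oriented surface has index zero (Stokes);
* `one_vortex` : vortices in a connected open set are collected at one point;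
* `ext : Hel40.ExtStmt`.
-/

set_option autoImplicit false
set_option linter.unusedSectionVars false

open Set Function Filter MeasureTheory Module Metric Complex
open scoped Topology ContDiff Manifold
open Crest.Agent.R208 Crest.Agent.R208.F Crest.Agent.X212.Dr59 Crest.Agent.X212.Int54
  Crest.Agent.X212.Pic56 Crest.Agent.X212.Orx52 Crest.Agent.X212.Sep15 Crest.Agent.X212.Line51
open Crest.Agent.X212.Glue52 (dir coe_dir contMDiffAt_dir dir_mul norm_mul_dir)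

namespace Crest.Agent.X212.Lsf39

noncomputable section

/-- relative smoothing -/
theorem exists_smooth {E H M : Type*} [NormedAddCommGroup E] [NormedSpace ℝ E]
    [FiniteDimensional ℝ E] [TopologicalSpace H] (I : ModelWithCorners ℝ E H) [TopologicalSpace M]
    [ChartedSpace H M] [IsManifold I ∞ M] [SigmaCompactSpace M] [T2Space M] {s : M → ℂ}
    {K C : Set M} (hK : IsClosed K) (hC : IsClosed C) (h : ∀ x ∈ K, ContinuousAt s x ∧ s x ≠ 0)
    (h' : ∀ x ∈ C, ∀ᶠ y in 𝓝 x, ContMDiffAt I 𝓘(ℝ, ℂ) ∞ s y) :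
    ∃ g : M → ℂ, ContMDiff I 𝓘(ℝ, ℂ) ∞ g ∧ (∀ x ∈ C, g x = s x) ∧ ∀ x ∈ K, g x ≠ 0 := by
  obtain ⟨g, hg⟩ := exists_contMDiffMap_forall_mem_convex_of_local (n := ⊤) I
    (t := fun x => {w | x ∈ C → w = s x} ∩ {w | x ∈ K → w ∈ ball (s x) ‖s x‖})
    (fun x => Convex.inter (by by_cases hx : x ∈ C <;> simp [hx, convex_univ, convex_singleton])
      (by by_cases hx : x ∈ K
          · simp only [hx, true_imp_iff]; exact convex_ball (s x) ‖s x‖
          · simp [hx, convex_univ])) fun x => by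
    by_cases hx : x ∈ C
    · exact ⟨_, h' x hx, s, fun y hy => ContMDiffAt.contMDiffWithinAt hy, fun y _ =>
        ⟨fun _ => rfl, fun hy => mem_ball_self (norm_pos_iff.2 (h y hy).2)⟩⟩
    by_cases hx' : x ∈ K
    · have h1 := (continuousAt_const (y := s x)).dist (h x hx').1 |>.eventually_lt (h x hx').1.norm
        (by simpa using (h x hx').2)
      exact ⟨_, inter_mem (hC.isOpen_compl.mem_nhds hx) h1, fun _ => s x, contMDiffOn_const,
        fun y hy => ⟨fun h => (hy.1 h).elim, fun _ => hy.2⟩⟩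
    · exact ⟨_, inter_mem (hC.isOpen_compl.mem_nhds hx) (hK.isOpen_compl.mem_nhds hx'), 0,
        contMDiffOn_const, fun y hy => ⟨fun h => (hy.1 h).elim, fun h => (hy.2 h).elim⟩⟩
  refine ⟨g, g.contMDiff, fun x hx => (hg x).1 hx, fun x hx e => ?_⟩
  simpa [e] using (hg x).2 hx

theorem dir_exp (w : ℂ) : dir (exp w) = Circle.exp w.im := by
  rw [← re_add_im w, exp_add, ← ofReal_exp, ← Circle.coe_exp, dir_mul (Real.exp_pos _)]
  simp

variable {R : Type*} [TopologicalSpace R] [ChartedSpace (EE 2) R] [IsManifold (𝓡 2) ∞ R]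
  {a : R → Ext (EE 2)} [T2Space R] [CompactSpace R]

theorem df_congr' {f g : R → ℝ} {x : R} (h : f =ᶠ[𝓝 x] g) : df (𝓡 2) f x = df (𝓡 2) g x := by
  rw [df, df, mf_congr h]

/-- the local computation `d κ(|c|²) ∧ d arg cⁿ = 2 n κ' dx dy` -/
theorem df_mul_ang {c : R → ℂ} {x : R} (hc : ContMDiffAt (𝓡 2) 𝓘(ℝ, ℂ) ∞ c x) (h0 : c x ≠ 0)
    {κ : ℝ → ℝ} {k : ℝ} (hk : HasDerivAt κ k (normSq (c x))) (n : ℤ) :
    df (𝓡 2) (fun y => κ (normSq (c y))) x * ang (𝓡 2) (fun y => dir (c y ^ n)) x =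
      (2 * k * n) • pm (𝓡 2) 𝓘(ℝ, ℂ) c oZ x := by
  let L : ℂ → ℂ := fun z => log (z / c x)
  have m : c x / c x ∈ slitPlane := by simp [h0]
  have dL : HasDerivAt L (c x)⁻¹ (c x) := by
    simpa [h0] using ((hasDerivAt_id (c x)).div_const (c x)).clog m
  have sL : ContMDiffAt (𝓡 2) 𝓘(ℝ, ℂ) ∞ (L ∘ c) x := ContDiffAt.comp_contMDiffAt
    (ContDiffAt.comp (f := fun z => z / c x) (c x) ((contDiffAt_log m).restrict_scalars ℝ)
      (contDiffAt_id.div_const _)) hc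
  have ev : ∀ᶠ y in 𝓝 x, c y = exp (log (c x) + L (c y)) := by
    filter_upwards [hc.continuousAt.eventually_ne h0] with y hy
    rw [exp_add, exp_log h0, exp_log (div_ne_zero hy h0), mul_div_cancel₀ _ h0]
  have s1 : ContMDiffAt (𝓡 2) 𝓘(ℝ, ℝ) ∞ (fun y => (L (c y)).re) x :=
    reCLM.contDiff.contDiffAt.comp_contMDiffAt sL
  have s2 : ContMDiffAt (𝓡 2) 𝓘(ℝ, ℝ) ∞ (fun y => (L (c y)).im) x :=
    imCLM.contDiff.contDiffAt.comp_contMDiffAt sL
  have L0 : (L (c x)).re = 0 := by simp [L]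
  have e1 : df (𝓡 2) (fun y => κ (normSq (c y))) x =
      (k * (normSq (c x) * 2)) • df (𝓡 2) (fun y => (L (c y)).re) x := by
    rw [← Tw39.df_comp (g := fun t => κ (normSq (c x) * Real.exp (2 * t)))
      (s1.mdifferentiableAt ne0) (by
        rw [L0]
        exact HasDerivAt.comp (0 : ℝ) (h₂ := κ) (by simpa using hk) (by
          simpa using (((hasDerivAt_id (0 : ℝ)).const_mul 2).exp).const_mul (normSq (c x))))]
    refine df_congr' (ev.mono fun y hy => ?_)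
    simp only
    rw [hy, exp_add, exp_log h0, map_mul, normSq_eq_norm_sq (exp _), norm_exp, ← Real.exp_nat_mul,
      ← exp_log h0, ← exp_add, ← hy]
    rfl
  have e2 : ang (𝓡 2) (fun y => dir (c y ^ n)) x = (n : ℝ) • df (𝓡 2) (fun y => (L (c y)).im) x := by
    rw [← Tw39.df_comp (g := fun t => n * ((log (c x)).im + t)) (s2.mdifferentiableAt ne0)
      (by simpa using ((hasDerivAt_id _).const_add _).const_mul (n : ℝ)),
      ← ang_exp (f := fun y => n * ((log (c x)).im + (L (c y)).im))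
        (contMDiffAt_const.mul (contMDiffAt_const.add s2))]
    refine ang_congr (ev.mono fun y hy => ?_)
    simp only
    conv_lhs => rw [hy, ← exp_int_mul, dir_exp]
    simp
  have e3 := pm_oZ (sL.mdifferentiableAt ne0)
  rw [← pm_comp (dL.differentiableAt.restrictScalars ℝ).mdifferentiableAt (hc.mdifferentiableAt ne0),
    pm_apply, pm_oZ_hol dL, map_smul, ← pm_apply] at e3
  rw [e1, e2, smul_mul_smul_comm]
  erw [← e3]
  rw [smul_smul, normSq_inv]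
  congr 1
  have := normSq_pos.2 h0
  field_simp

/-- a single vortex has index zero -/
theorem ix_zero (ha : Ori (𝓡 2) a) {s : R → ℂ} {q : R} {n : ℤ} (hc : ContinuousOn s {q}ᶜ)
    (h0 : ∀ x, x ≠ q → s x ≠ 0) {c : OpenPartialHomeomorph R ℂ} (hq : q ∈ c.source)
    (sc₀ : ∀ x ∈ c.source, ContMDiffAt (𝓡 2) 𝓘(ℝ, ℂ) ∞ c x) (hj : jac (mf (𝓡 2) 𝓘(ℝ, ℂ) c q) ≠ 0)
    (h : LE s (fun x => (c x - c q) ^ n) q) : n = 0 := by
  classical
  borelize R (EE 2)
  have : SecondCountableTopology R := ChartedSpace.secondCountable_of_sigmaCompact (EE 2) R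
  obtain ⟨U, hU, ψ, h1, h2⟩ := h
  have sc : ∀ x ∈ c.source, ContMDiffAt (𝓡 2) 𝓘(ℝ, ℂ) ∞ (fun y => c y - c q) x :=
    fun x hx => (sc₀ x hx).sub contMDiffAt_const
  let ρ := rat a (pm (𝓡 2) 𝓘(ℝ, ℂ) (fun y => c y - c q) oZ)
  have ρ0 : ρ q ≠ 0 := div_ne_zero (by
    rw [tp_pm rk2, mf_of_has (f := fun y => c y - c q)
      ((((sc₀ q hq).mdifferentiableAt ne0).hasMFDerivAt).sub (hasMFDerivAt_const _ _))]
    exact mul_ne_zero (mt (congrArg jac (sub_zero _)).symm.trans hj) (ori_oZ.ne _)) (ha.ne q)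
  have cρ : ContinuousAt ρ q := contAt_rat (ha.sm q) (ha.ne q) (SmAt.pm (sc q hq) (ori_oZ.sm _))
  have hV : interior (U ∩ c.source ∩ {x | 0 < ρ q * ρ x}) ∈ 𝓝 q := interior_mem_nhds.2
    (inter_mem (inter_mem hU (c.open_source.mem_nhds hq))
      ((continuousAt_const.mul cρ).eventually (lt_mem_nhds (mul_self_pos.2 ρ0))))
  obtain ⟨r, hr, hs⟩ := nhds_basis_closedBall.mem_iff.1 (inter_mem
    (c.open_target.mem_nhds (c.map_source hq))
    (c.continuousAt_symm (c.map_source hq) (by rwa [c.left_inv hq])))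
  let D : ℝ → Set R := fun t => c.symm '' closedBall (c q) t
  let B : ℝ → Set R := fun t => c.source ∩ c ⁻¹' ball (c q) t
  have cD : ∀ t ≤ r, IsClosed (D t) := fun t ht => ((isCompact_closedBall _ _).image_of_continuousOn
    (c.continuousOn_symm.mono fun z hz => (hs (closedBall_subset_closedBall ht hz)).1)).isClosed
  have oB : ∀ t, IsOpen (B t) := fun t => c.isOpen_inter_preimage isOpen_ball
  have mD : ∀ t ≤ r, ∀ x, x ∈ D t ↔ x ∈ c.source ∧ ‖c x - c q‖ ≤ t := fun t ht x =>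
    ⟨by
      rintro ⟨z, hz, rfl⟩
      have := (hs (closedBall_subset_closedBall ht hz)).1
      exact ⟨c.map_target this, by rwa [c.right_inv this, ← mem_closedBall_iff_norm]⟩,
    fun hx => ⟨c x, mem_closedBall_iff_norm.2 hx.2, c.left_inv hx.1⟩⟩
  have mB : ∀ t x, x ∈ B t ↔ x ∈ c.source ∧ ‖c x - c q‖ < t := fun t x =>
    and_congr_right fun _ => mem_ball_iff_norm
  have DV : D r ⊆ _ := image_subset_iff.2 fun z hz => (hs hz).2
  obtain ⟨χ₀, c1, -, -, cc⟩ := exists_cut (cD r le_rfl) isOpen_interior DV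
  have ne : ∀ t > 0, ∀ x ∉ B t, x ≠ q := fun t ht x hx e => hx ((mB t x).2 (by simp [e, hq, ht]))
  have n0 : ∀ x ∈ c.source, x ≠ q → c x - c q ≠ 0 := fun x hx h e =>
    h (c.injOn hx hq (sub_eq_zero.1 e))
  have es : ∀ x ∈ D r, x ≠ q → exp (-(χ₀ x * ψ x)) * s x = (c x - c q) ^ n := fun x hx h => by
    rw [c1 x hx, h2 x ⟨(interior_subset (DV hx)).1.1, h⟩, ← mul_assoc, ← exp_add]
    simp
  have BD : B r ⊆ D r := fun x hx => (mD r le_rfl x).2 ⟨hx.1, ((mB r x).1 hx).2.le⟩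
  obtain ⟨g, sg, g1, g0⟩ := exists_smooth (𝓡 2) (s := fun x => exp (-(χ₀ x * ψ x)) * s x)
    (oB (r / 4)).isClosed_compl ((cD (3 * r / 4) (by linarith)).sdiff (oB (r / 4)))
    (fun x hx => ⟨((((cc {q}ᶜ ψ (h1.mono fun y hy => ⟨(interior_subset hy.1).1.1, hy.2⟩)).neg.cexp).mul
      hc).continuousAt (isOpen_ne.mem_nhds (ne _ (by linarith) x hx))),
      mul_ne_zero (exp_ne_zero _) (h0 x (ne _ (by linarith) x hx))⟩) fun x hx => by
      have h3 := (mD _ (by linarith) x).1 hx.1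
      have h4 : B r ∩ {q}ᶜ ∈ 𝓝 x := ((oB r).inter isOpen_ne).mem_nhds
        ⟨(mB r x).2 ⟨h3.1, by linarith [h3.2]⟩, ne _ (by linarith) x hx.2⟩
      filter_upwards [eventually_eventually_nhds.2 h4] with y hy
      have h5 := hy.self_of_nhds
      exact (ContDiffAt.comp_contMDiffAt (f := fun y => c y - c q) (((analyticAt_id (𝕜 := ℂ)).zpow (n := n)
        (n0 y h5.1.1 h5.2)).contDiffAt.restrict_scalars ℝ) (sc y h5.1.1)).congr_of_eventuallyEq
        (hy.mono fun z hz => es z (BD hz.1) hz.2)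
  let κ : ℝ → ℝ := fun t => Real.smoothTransition ((t - r ^ 2 / 9) / (r ^ 2 / 4 - r ^ 2 / 9))
  have p : 0 < r ^ 2 / 4 - r ^ 2 / 9 := by nlinarith
  have sκ : ContDiff ℝ ∞ κ :=
    Real.smoothTransition.contDiff.comp ((contDiff_id.sub contDiff_const).div_const _)
  have κ0 : ∀ t ≤ r ^ 2 / 9, κ t = 0 := fun t ht => Real.smoothTransition.zero_of_nonpos
    (div_nonpos_of_nonpos_of_nonneg (by linarith) p.le)
  have κ1 : ∀ t ≥ r ^ 2 / 4, κ t = 1 := fun t ht => Real.smoothTransition.one_of_one_le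
    ((one_le_div p).2 (by linarith))
  have κm : Monotone κ := fun x y h =>
    Real.smoothTransition.monotone (div_le_div_of_nonneg_right (by linarith) p.le)
  let χ : R → ℝ := fun x => if x ∈ c.source then κ (normSq (c x - c q)) else 1
  have x1 : ∀ x ∈ c.source, χ =ᶠ[𝓝 x] fun y => κ (normSq (c y - c q)) := fun x hx =>
    eventually_of_mem (c.open_source.mem_nhds hx) fun y hy => if_pos hy
  have x2 : ∀ x ∉ D (r / 2), χ =ᶠ[𝓝 x] fun _ => 1 := fun x hx => by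
    filter_upwards [(cD _ (by linarith)).isOpen_compl.mem_nhds hx] with y hy
    by_cases h : y ∈ c.source
    · have : r / 2 < ‖c y - c q‖ := not_le.1 fun h' => hy ((mD _ (by linarith) y).2 ⟨h, h'⟩)
      exact (if_pos h).trans (κ1 _ (by rw [normSq_eq_norm_sq]; nlinarith))
    · exact if_neg h
  have x3 : ∀ x ∈ B (r / 3), χ =ᶠ[𝓝 x] fun _ => 0 := fun x hx => by
    filter_upwards [(oB _).mem_nhds hx] with y hy
    have := ((mB _ y).1 hy).2
    exact (if_pos hy.1).trans (κ0 _ (by rw [normSq_eq_norm_sq]; nlinarith [norm_nonneg (c y - c q)]))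
  have sχ : ContMDiff (𝓡 2) 𝓘(ℝ, ℝ) ∞ χ := fun x => by
    by_cases hx : x ∈ D (r / 2)
    · have h := ((mD _ (by linarith) x).1 hx).1
      refine ((sκ.comp (contDiff_norm_sq ℝ)).contDiffAt.comp_contMDiffAt
        (sc x h)).congr_of_eventuallyEq ((x1 x h).mono fun y hy => ?_)
      simp only [hy, normSq_eq_norm_sq, comp_apply]
    · exact contMDiffAt_const.congr_of_eventuallyEq (x2 x hx)
  have B43 : B (r / 4) ⊆ B (r / 3) := inter_subset_inter_right _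
    (preimage_mono (ball_subset_ball (by linarith)))
  have su : ∀ x ∉ B (r / 4), CSm (𝓡 2) (fun y => dir (g y)) x := fun x hx =>
    (contMDiffAt_dir (g0 x hx)).comp x (sg x)
  have tχ : ∀ x ∈ tsupport χ, x ∉ B (r / 4) := fun x hx h =>
    notMem_tsupport_iff_eventuallyEq.2 (x3 x (B43 h)) hx
  have st := integ_fsmul_dM ha sχ (HasCompactSupport.of_compactSpace χ)
    fun x hx => smAt_ang (su x (tχ x hx))
  rw [show χ • dM (𝓡 2) (ang (𝓡 2) fun y => dir (g y)) = 0 from funext fun x => by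
    by_cases hx : χ x = 0
    · simp [hx]
    · simp [dM_ang (su x (tχ x (subset_tsupport _ hx)))], integ_zero, zero_eq_neg] at st
  have z : ∀ x (b : ℝ), (χ =ᶠ[𝓝 x] fun _ => b) → df (𝓡 2) χ x = 0 := fun x b h => by
    rw [df, mf_congr h, mf_const]
    simp
  have cF : Continuous (rat a (df (𝓡 2) χ * ang (𝓡 2) fun y => dir (g y))) :=
    ha.continuous_rat fun x => by
      by_cases hx : x ∈ B (r / 4)
      · refine CAt.congr cAt_zero ?_
        filter_upwards [(oB _).mem_nhds hx] with y hy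
        simp [z y 0 (x3 y (B43 hy))]
      · exact ((smAt_df (sχ x)).mul (smAt_ang (su x hx))).of_le (by simp)
  have eF : ∀ x ∈ D (r / 2), x ∉ B (r / 3) → 0 < ρ q * ρ x ∧
      rat a (df (𝓡 2) χ * ang (𝓡 2) fun y => dir (g y)) x =
        2 * deriv κ (normSq (c x - c q)) * n * ρ x := fun x hx hx' => by
    have h3 := (mD _ (by linarith) x).1 hx
    have h4 : r / 3 ≤ ‖c x - c q‖ := not_lt.1 fun h => hx' ((mB _ x).2 ⟨h3.1, h⟩)
    refine ⟨(interior_subset (DV ((mD r le_rfl x).2 ⟨h3.1, by linarith [h3.2]⟩))).2, ?_⟩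
    have h5 : (fun y => dir (g y)) =ᶠ[𝓝 x] fun y => dir ((c y - c q) ^ n) := by
      filter_upwards [(oB (3 * r / 4)).mem_nhds ((mB _ x).2 ⟨h3.1, by linarith [h3.2]⟩),
        (cD (r / 4) (by linarith)).isOpen_compl.mem_nhds fun h => by
          linarith [((mD _ (by linarith) x).1 h).2]] with y h6 h7
      have h8 := (mB _ y).1 h6
      have h9 : y ∉ B (r / 4) := fun h => h7 ((mD _ (by linarith) y).2 ⟨h.1, ((mB _ y).1 h).2.le⟩)
      rw [g1 y ⟨(mD _ (by linarith) y).2 ⟨h8.1, h8.2.le⟩, h9⟩,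
        es y ((mD r le_rfl y).2 ⟨h8.1, by linarith [h8.2]⟩) (ne _ (by linarith) y h9)]
    rw [rat, Pi.mul_apply, ang_congr h5, df_congr' (x1 x h3.1),
      df_mul_ang (sc x h3.1) (n0 x h3.1 (ne _ (by linarith) x hx'))
        (sκ.differentiable (by simp) _).hasDerivAt, map_smul, smul_eq_mul, mul_div_assoc]
    rfl
  by_contra hn
  obtain ⟨t, ht, e⟩ := exists_deriv_eq_slope κ (sub_pos.1 p) sκ.continuous.continuousOn
    (sκ.differentiable (by simp)).differentiableOn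
  rw [κ1 _ le_rfl, κ0 _ le_rfl] at e
  have t0 : 0 ≤ t := le_trans (by positivity) ht.1.le
  have hz : c q + √t ∈ closedBall (c q) (r / 2) := by
    simpa [abs_of_nonneg, Real.sqrt_le_iff, hr.le, div_nonneg, div_pow] using by linarith [ht.2]
  have hz' := c.right_inv (hs (closedBall_subset_closedBall (by linarith) hz)).1
  have hx := eF _ ⟨_, hz, rfl⟩ fun h => by
    have := ((mB _ _).1 h).2
    rw [hz', add_sub_cancel_left, norm_real, Real.norm_of_nonneg (Real.sqrt_nonneg _),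
      Real.sqrt_lt' (by linarith)] at this
    linarith [ht.1]
  have := ha.finCpt
  have := ha.openPos
  have := (continuous_const.mul cF).integral_pos_of_hasCompactSupport_nonneg_nonzero
    (μ := dens (𝓡 2) a) (f := fun x => ρ q * n * _) (HasCompactSupport.of_compactSpace _)
    (fun x => by
      by_cases h1 : x ∈ D (r / 2)
      · by_cases h2 : x ∈ B (r / 3)
        · simp [rat, z x 0 (x3 x h2)]
        · obtain ⟨h3, h4⟩ := eF x h1 h2
          have h5 : 0 ≤ deriv κ (normSq (c x - c q)) := κm.deriv_nonneg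
          have := mul_nonneg (mul_nonneg h3.le h5) (mul_self_nonneg (n : ℝ))
          simp only [h4, Pi.zero_apply]
          linarith
      · simp [rat, z x 1 (x2 x h1)]) (x := c.symm (c q + √t)) (by
      simp only [hx.2, hz', add_sub_cancel_left, normSq_ofReal, Real.mul_self_sqrt t0, e]
      have := right_ne_zero_of_mul hx.1.ne'
      have : (n : ℝ) ≠ 0 := by exact_mod_cast hn
      have := p.ne'
      positivity)
  rw [integral_const_mul] at this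
  exact this.ne' (mul_eq_zero_of_right _ st)

/-- vortices in a connected open set are collected at one point -/
theorem collect {X V : Type*} [TopologicalSpace X] [T4Space X] [NormedAddCommGroup V]
    [NormedSpace ℂ V] {P : X → V →L[ℂ] V} (hP : IsLine P univ)
    (hc : ∀ x : X, ∃ c : OpenPartialHomeomorph X ℂ, x ∈ c.source) {W F : Set X} (hW : IsOpen W)
    (cW : IsPreconnected W) (hF : F.Finite) (hFW : F ⊆ W) {q : X} (hq : q ∈ W) {s : X → V}
    (hs : IsFrame P s (F ∪ {q})ᶜ) : ∃ s', IsFrame P s' {q}ᶜ ∧ ∀ᶠ x in 𝓝ˢ Wᶜ, s' x = s x := by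
  have mv : ∀ F : Set X, IsClosed F → ∀ q ∈ W, ∀ q' ∈ W, ∀ s, IsFrame P s (F ∪ {q})ᶜ →
      ∃ s', IsFrame P s' (F ∪ {q'})ᶜ ∧ ∀ᶠ x in 𝓝ˢ Wᶜ, s' x = s x := fun F hF q hq q' hq' => by
    refine cW.induction₂' (fun q q' => ∀ s, IsFrame P s (F ∪ {q})ᶜ →
      ∃ s', IsFrame P s' (F ∪ {q'})ᶜ ∧ ∀ᶠ x in 𝓝ˢ Wᶜ, s' x = s x) (fun x hx => ?_)
      (fun _ _ _ _ _ _ h h' s hs => ?_) hq hq'
    · obtain ⟨c, hx'⟩ := hc x
      obtain ⟨B, hB, B1, B2⟩ := exists_mem_nhds_isClosed_subset (hW.mem_nhds hx)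
      obtain ⟨O, O1, O2, O3, h⟩ := move (P := P) (c.restrOpen _ isOpen_interior)
        ⟨hx', mem_interior_iff_mem_nhds.2 hB⟩
      have key : ∀ q ∈ O, ∀ q' ∈ O, ∀ s, IsFrame P s (F ∪ {q})ᶜ →
          ∃ s', IsFrame P s' (F ∪ {q'})ᶜ ∧ ∀ᶠ x in 𝓝ˢ Wᶜ, s' x = s x := fun q hq q' hq' s hs => by
        rcases eq_or_ne q q' with rfl | hn
        · exact ⟨s, hs, .of_forall fun _ => rfl⟩
        by_cases hqF : q ∈ F
        · exact ⟨s, hs.mono fun x hx h => hx (Or.inl (h.elim id fun e => e ▸ hqF)),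
            .of_forall fun _ => rfl⟩
        obtain ⟨n, hi⟩ := exists_ix (hP.mono (subset_univ Fᶜ)) (hF.isOpen_compl.mem_nhds hqF)
          (hs.mono fun x hx h => h.elim hx.1 hx.2) _ (O3 hq)
        obtain ⟨s', h1, -, h2⟩ := h q hq q' hq' hn s F n hF hqF hs hi
        exact ⟨s', h1, eventually_of_mem (B1.isOpen_compl.mem_nhdsSet.2 (compl_subset_compl.2 B2))
          fun y hy => h2 y fun h => hy (interior_subset h.2)⟩
      filter_upwards [nhdsWithin_le_nhds (O1.mem_nhds O2)] with y hy using ⟨key x O2 y hy, key y hy x O2⟩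
    · obtain ⟨s1, h1, h2⟩ := h s hs
      obtain ⟨s2, h3, h4⟩ := h' s1 h1
      exact ⟨s2, h3, (h4.and h2).mono fun _ h => h.1.trans h.2⟩
  induction F, hF using Set.Finite.induction_on generalizing s with
  | empty => exact ⟨s, by simpa using hs, .of_forall fun _ => rfl⟩
  | @insert x F _ hF ih =>
    rw [insert_union, ← union_singleton] at hs
    obtain ⟨s1, h1, h2⟩ := mv _ (hF.union (finite_singleton q)).isClosed x (hFW (mem_insert _ _)) q hq
      s hs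
    rw [union_assoc, union_self] at h1
    obtain ⟨s2, h3, h4⟩ := ih ((subset_insert _ _).trans hFW) h1
    exact ⟨s2, h3, (h4.and h2).mono fun _ h => h.1.trans h.2⟩

/-- a generic member of a pencil has finitely many zeros -/
theorem finite_pencil (a : R → Ext (EE 2)) {f g : R → ℂ} (sf : ContMDiff (𝓡 2) 𝓘(ℝ, ℂ) ∞ f)
    (sg : ContMDiff (𝓡 2) 𝓘(ℝ, ℂ) ∞ g) (h : ∀ x, g x = 0 → f x ≠ 0) :
    ∃ v, {x | f x = g x * v}.Finite := by
  obtain ⟨t, ht⟩ := isCompact_univ.elim_finite_subcover _ (fun x => (zc a x).open_source)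
    fun x _ => mem_iUnion.2 ⟨x, mem_zc x⟩
  obtain ⟨v, hv⟩ := ((ae_ball_iff t.countable_toSet).2 fun x _ => ae_isolated (volume : Measure ℂ)
    fun w => f ((zc a x).symm w) / g ((zc a x).symm w)).exists
  refine ⟨v, (isClosed_eq sf.continuous (sg.continuous.mul continuous_const)).isCompact.finite
    (isDiscrete_iff_nhdsNE.2 fun y hy => inf_principal_eq_bot.2 ?_)⟩
  obtain ⟨x, hx, hxy⟩ := mem_iUnion₂.1 (ht (mem_univ y))
  have d : ∀ k : R → ℂ, ContMDiff (𝓡 2) 𝓘(ℝ, ℂ) ∞ k →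
      DifferentiableAt ℝ (fun w => k ((zc a x).symm w)) (zc a x y) := fun k hk =>
    ((hk _).comp _ (sm_zc_symm ((zc _ x).map_source hxy))).contDiffAt.differentiableAt (by simp)
  have h0 := hv x hx
  generalize zc a x = c at *
  have n : ∀ y, f y = g y * v → g y ≠ 0 := fun y hy e => h y e (by rw [hy, e, zero_mul])
  have key : ∀ y ∈ c.source, f y = g y * v → f (c.symm (c y)) / g (c.symm (c y)) = v :=
    fun y h1 h2 => by rw [c.left_inv h1, h2, mul_div_cancel_left₀ _ (n y h2)]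
  have h1 := h0 (c y) ((d f sf).fun_mul ((d g sg).fun_inv (by rw [c.left_inv hxy]; exact n y hy)))
    (key y hxy hy)
  have hs := c.open_source.mem_nhds hxy
  have h2 : Tendsto c (𝓝[≠] y) (𝓝[≠] (c y)) := by
    refine tendsto_nhdsWithin_iff.2 ⟨tendsto_nhdsWithin_of_tendsto_nhds (c.continuousAt hxy), ?_⟩
    filter_upwards [self_mem_nhdsWithin, nhdsWithin_le_nhds hs] with y' h3 h4 h5
    exact h3 (c.injOn h4 hxy h5)
  filter_upwards [h2.eventually h1, nhdsWithin_le_nhds hs] with y' h3 h4 h5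
  exact h3 (key y' h4 h5)

/-- **EXT** -/
theorem ext : Hel40.ExtStmt := by
  intro R a W N u ha hW cW hN hWN hu
  rcases W.eq_empty_or_nonempty with rfl | ⟨q, hq⟩
  · exact ⟨u, fun x => hu.contMDiffAt (hN.mem_nhds (hWN id)), .of_forall fun _ => rfl⟩
  obtain ⟨χ, c0, c1, -⟩ := exists_contMDiffMap_zero_one_nhds_of_isClosed (n := ⊤) (𝓡 2)
    hN.isClosed_compl hW.isClosed_compl (disjoint_compl_left_iff_subset.2 hWN)
  have sχ : ContMDiff (𝓡 2) 𝓘(ℝ, ℂ) ∞ fun x => (χ x : ℂ) :=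
    ofRealCLM.contDiff.contMDiff.comp χ.contMDiff
  have su : ∀ x ∈ N, ContMDiffAt (𝓡 2) 𝓘(ℝ, ℂ) ∞ (fun x => (u x : ℂ)) x := fun x hx =>
    (contMDiff_coe _).comp x (hu.contMDiffAt (hN.mem_nhds hx))
  have sf : ContMDiff (𝓡 2) 𝓘(ℝ, ℂ) ∞ fun x => (χ x : ℂ) * u x := fun x => by
    by_cases hx : x ∈ N
    · exact ContDiffAt.comp_contMDiffAt (f := fun x => ((χ x : ℂ), (u x : ℂ))) contDiff_mul.contDiffAt
        ((sχ x).prodMk_space (su x hx))
    · exact (contMDiffAt_const (c := 0)).congr_of_eventuallyEq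
        ((c0.filter_mono (nhds_le_nhdsSet hx)).mono fun y hy => by simp [hy])
  have sg : ContMDiff (𝓡 2) 𝓘(ℝ, ℂ) ∞ fun x => (χ x : ℂ) - 1 := sχ.sub contMDiff_const
  obtain ⟨v, hv⟩ := finite_pencil a sf sg fun x h => by simp [sub_eq_zero.1 h]
  have hP : IsLine (fun _ : R => ContinuousLinearMap.id ℂ ℂ) univ :=
    ⟨continuousOn_const, fun _ _ _ => rfl, fun _ _ => ⟨1, one_ne_zero, rfl, fun v _ => ⟨v, by simp⟩⟩⟩
  obtain ⟨s, h1, h2⟩ := collect hP (fun x => ⟨_, mem_zc (a := a) x⟩) hW cW hv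
    (fun x hx => by_contra fun h => by simp [c1.self_of_nhdsSet x h] at hx) hq
    (s := fun x => (χ x : ℂ) * u x - (χ x - 1) * v)
    ⟨(sf.continuous.sub (sg.continuous.mul continuous_const)).continuousOn, fun _ _ => rfl,
      fun x hx e => hx (.inl (sub_eq_zero.1 e))⟩
  obtain ⟨n, hn⟩ := exists_ix hP univ_mem (h1.mono fun _ hx => hx.2) _ (mem_zc (a := a) q)
  obtain rfl : n = 0 := by
    obtain ⟨U, hU, e, φ, h3, h4, h5⟩ := hn
    refine ix_zero ha h1.cont h1.ne (mem_zc q) (fun x hx => sm_zc hx)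
      (right_ne_zero_of_mul (pos_zc ha q).ne') ((LE.of_eq (b := φ * e) ?_).trans
        ((h5.mul (LE.of_ne hU h3.cont (h3.ne q (mem_of_mem_nhds hU)))).trans (by simp [LE.refl])))
    filter_upwards [self_mem_nhdsWithin, nhdsWithin_le_nhds hU] with x h6 h7 using h4 x ⟨h7, h6⟩
  obtain ⟨B, hB, B1, B2⟩ := exists_mem_nhds_isClosed_subset (hW.mem_nhds hq)
  obtain ⟨s', h3, h4⟩ := remove univ_mem (h1.mono fun _ hx => hx.2)
    (hn.of_le (.of_eq (.of_forall fun _ => zpow_zero _))) hB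
  have h5 : ∀ᶠ x in 𝓝ˢ Wᶜ, x ∈ N ∧ s' x = u x := by
    filter_upwards [h2, c1, B1.isOpen_compl.mem_nhdsSet.2 (compl_subset_compl.2 B2),
      hN.mem_nhdsSet.2 hWN] with x h6 h7 h8 h9
    exact ⟨h9, by simp [h4 x h8, h6, h7]⟩
  obtain ⟨O, O1, O2, O3⟩ := mem_nhdsSet_iff_exists.1 h5
  obtain ⟨C, C1, C2, C3⟩ := normal_exists_closure_subset hW.isClosed_compl O1 O2
  obtain ⟨g, g1, g2, g3⟩ := exists_smooth (𝓡 2) (s := s') isClosed_univ isClosed_closure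
    (fun x hx => ⟨h3.cont.continuousAt univ_mem, h3.ne x hx⟩) fun x hx => by
      filter_upwards [O1.mem_nhds (C3 hx)] with y hy
      exact (su y (O3 hy).1).congr_of_eventuallyEq
        (eventually_of_mem (O1.mem_nhds hy) fun z hz => (O3 hz).2)
  refine ⟨fun x => dir (g x), fun x => (contMDiffAt_dir (g3 x trivial)).comp x (g1 x),
    eventually_of_mem (C1.mem_nhdsSet.2 C2) fun x hx => ?_⟩
  simp only [g2 x (subset_closure hx), (O3 (C3 (subset_closure hx))).2]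
  simpa using dir_mul one_pos (u x)

end

end Crest.Agent.X212.Lsf39
end

-- ▼ part X212/Stp42/Hf
section

/-!
# X212/Stp42/Hf (helper42): the first half of STEP (everything before the regluing)
-/

set_option autoImplicit false
set_option linter.unusedSectionVars false

open Set Filter Topology Function
open scoped ContDiff Manifold
open Crest.Agent.R208.F Crest.Agent.X212.Dr59 Crest.Agent.X212.Int54 Crest.Agent.X212.Cyl58
open Crest.Agent.X212.Sep15 (EE IR CM Box slab px Rg)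
open Crest.Agent.X212.Bb31 (Fm Df Pos)
open Crest.Agent.X212.Flo26 (SmV fl)
open Crest.Agent.X212.H7 (KK Hd)
open Crest.Agent.X212.Line51 (CSm)
open Crest.Agent.X212.Hel40

noncomputable section

namespace Crest.Agent.X212.Stp42

variable {Y : CM 3} {R : CM 2} {o : Fm 3 Y} {v : Vf Y} {Φ : Y → Circle} {M K L : Set Y}
  {oR : Fm 2 R} {b : R × ℝ → Y} {F : Set R} {f : Y → R} {π : R → Y} {σ δ a : ℝ} {E : ℂ × ℝ → Y}

/-- the lines of a handle column are columns -/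
theorem colE (hv : SmV (𝓡 3) v) (C : Col v Φ δ a E) {z : ℂ} (hz : z ∈ Xo δ) {θ : ℝ} {n : ℤ}
    (h1 : |θ| < a) (h2 : |2 * Real.pi * n| < a) (h3 : |θ - 2 * Real.pi * n| < Real.pi)
    (hL : E (z, 2 * Real.pi * n) ∈ L) : E (z, θ) ∈ col v Φ L := by
  have sub : uIcc θ (2 * Real.pi * n) ⊆ Ioo (-a) a :=
    ordConnected_Ioo.uIcc_subset (abs_lt.1 h1) (abs_lt.1 h2)
  obtain ⟨τ, t1, -, t3⟩ := Box46.trk Y v (fun t => E (z, t)) (-a) a hv fun t ht => by
    have l := C.ld (z, t) hz (abs_lt.2 ht)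
    obtain ⟨g, g0, g1⟩ : ∃ g > (0 : ℝ), mf ICR (𝓡 3) E (z, t) (0, 1) = g • Box46.vv v (E (z, t)) :=
      C.vert (z, t) hz (abs_lt.2 ht)
    refine ⟨l.contMDiffAt.comp t (contMDiffAt_const.prodMk contMDiffAt_id), fun e => ?_, g, g0, ?_⟩
    · rw [show Box46.vv v (E (z, t)) = 0 from e, smul_zero] at g1
      exact one_ne_zero (congrArg Prod.snd (Box46.ld_inj l (g1.trans (map_zero _).symm)))
    · exact ((Box46.mf_line (hasDerivAt_id t) (l.mdifferentiableAt (by simp))).trans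
        (one_smul _ _)).trans g1
  refine ⟨τ _ - τ θ, (t3 θ (sub left_mem_uIcc) _ (sub right_mem_uIcc)).symm ▸ hL, fun t ht => ?_⟩
  obtain ⟨r, r1, r2⟩ := intermediate_value_uIcc ((t1.mono sub).sub (continuousOn_const (c := τ θ)))
    (show t ∈ uIcc (τ θ - τ θ) (τ (2 * Real.pi * n) - τ θ) by rwa [sub_self])
  rw [← r2, Pi.sub_apply, t3 θ (sub left_mem_uIcc) r (sub r1), C.ang (z, r) hz (abs_lt.2 (sub r1)),
    show Circle.exp (z, r).2 = Circle.exp (r - 2 * Real.pi * n) from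
      Circle.exp_eq_exp.2 ⟨n, by ring⟩]
  have := abs_lt.1 h3
  refine exp_ne_neg (abs_lt.2 ?_)
  rcases mem_uIcc.1 r1 with c | c <;> constructor <;> linarith [c.1, c.2, Real.pi_pos]

section ft

variable (B : Bas o v Φ M) (T : Ft v Φ M b σ F f π) (hL : L ⊆ PP Φ M)
include B T hL

theorem mem_img {x : R} : x ∈ f '' L ↔ x ∈ F ∧ π x ∈ L :=
  ⟨fun ⟨y, hy, e⟩ => e ▸ ⟨T.maps (mem_col B.smv (hL hy) (hL hy).1), (T.right y (hL hy)).symm ▸ hy⟩,
    fun h => ⟨_, h.2, T.left x h.1⟩⟩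

theorem col_iff {y : Y} : y ∈ col v Φ L ↔ y ∈ col v Φ (PP Φ M) ∧ f y ∈ f '' L := by
  rw [T.colK L hL, mem_img B T hL]
  exact and_congr_right fun h => (and_iff_right (T.maps h)).symm

theorem b_col {x : R} {s : ℝ} (hs : 0 < σ * s) : b (x, s) ∈ col v Φ L ↔ x ∈ f '' L := by
  rw [col_iff B T hL, T.mem x s hs, T.box x s hs]
  exact and_iff_right_of_imp fun h => ((mem_img B T hL).1 h).1

theorem cont_f : ContinuousOn f L :=
  T.sm.continuousOn.mono fun _ hy => mem_col B.smv (hL hy) (hL hy).1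

theorem conn_up (h : IsPreconnected (PP Φ M \ L)) : IsPreconnected (F \ f '' L) := by
  convert h.image f (cont_f B T sdiff_subset) using 1
  ext x
  rw [mem_img B T sdiff_subset, Set.mem_sdiff, mem_img B T hL]
  exact ⟨fun c => ⟨c.1, T.maps' c.1, fun c' => c.2 ⟨c.1, c'⟩⟩, fun c => ⟨c.1, fun c' => c.2.2 c'.2⟩⟩

theorem conn_dn (h : IsPreconnected (F \ f '' L)) : IsPreconnected (PP Φ M \ L) := by
  convert h.image π (T.cont.mono sdiff_subset) using 1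
  ext y
  refine ⟨fun c => ⟨f y, ⟨T.maps (mem_col B.smv c.1 c.1.1), fun c' => c.2 ?_⟩, T.right y c.1⟩, ?_⟩
  · exact T.right y c.1 ▸ ((mem_img B T hL).1 c').2
  · rintro ⟨x, hx, rfl⟩
    exact ⟨T.maps' hx.1, fun c => hx.2 ((mem_img B T hL).2 ⟨hx.1, c⟩)⟩

end ft

/-- the output of the first half -/
structure Hf (o : Fm 3 Y) (v : Vf Y) (Φ : Y → Circle) (M K : Set Y) (δ : ℝ) (E : ℂ × ℝ → Y)
    (φ : Y → Circle) (oR : Fm 2 R) (b : R × ℝ → Y) (ψ : Y → Circle) (h : Df R) (D : R → Circle)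
    (l₁ l₂ : R → ℝ) (L : Set Y) (c : ℝ → R) (e₁ e₂ : ℂ → R) (δ' : ℝ) (W : Set ℂ) : Prop where
  bx : Bx o v Φ oR b
  conn : IsPreconnected (univ : Set R)
  kk : KK oR h
  pos : Pos oR h
  hd : ∃ A B δ₁ ε₁, Hd oR A B δ₁ ∧ 0 < ε₁ ∧ ε₁ < δ₁ ∧ D = del A ε₁
  smD : SC D
  sm₁ : ContMDiff (𝓡 2) 𝓘(ℝ, ℝ) ∞ l₁
  sm₂ : ContMDiff (𝓡 2) 𝓘(ℝ, ℝ) ∞ l₂
  smψ : ContMDiffOn (𝓡 3) (𝓡 1) ∞ ψ {y | (Φ y : ℂ) ≠ -1}
  near : ∀ᶠ y in 𝓝ˢ M, ψ y = φ y
  eq : ∀ x, ∀ s ∈ Ioc (0 : ℝ) 7,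
    ψ (b (x, s)) = D (h x) * Circle.exp (l₁ x) ∧ ψ (b (x, -s)) = D x * Circle.exp (l₂ x)
  cpt : IsCompact L
  sub : L ⊆ PP Φ M
  KL : K ⊆ L
  cn : IsPreconnected (PP Φ M \ L)
  one : ∀ x, b (x, 5) ∈ col v Φ L → ∀ᶠ x' in 𝓝 x, ψ (b (x', 5)) = 1
  dual : Dual (fun x => ψ (b (x, 5))) c
  dcol : ∀ t, b (c t, 5) ∈ col v Φ (PP Φ M \ L)
  hdl : Hdl e₂ δ'
  free : ∀ z ∈ Xo δ', ψ (b (e₂ z, 5)) = 1 ∧ b (e₂ z, 5) ∉ col v Φ L
  oneK : ∀ y ∈ col v Φ K, ∀ᶠ z in 𝓝 y, ψ z = 1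
  one₁ : ∀ x, ∀ s > (0 : ℝ), b (x, s) ∈ col v Φ K → ∀ᶠ x' in 𝓝 x, D (h x') = 1
  one₂ : ∀ x, ∀ s < (0 : ℝ), b (x, s) ∈ col v Φ K → ∀ᶠ x' in 𝓝 x, D x' = 1
  opW : IsOpen W
  neW : W.Nonempty
  subW : W ⊆ Xo δ
  memW : ∀ z ∈ W, E (z, 0) ∈ L
  lo : ∀ z ∈ W, ∀ s > (0 : ℝ), b (e₁ z, s) = E (z, -Real.pi + 2 * Real.arctan s)
  hi : ∀ z ∈ W, ∀ s < (0 : ℝ), b (e₂ z, s) = E (z, Real.pi + 2 * Real.arctan s)

theorem half (surf : SurfStmt) {M' U : Set Y} (S : Pre v M M') (H : St o v Φ M U K δ a E)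
    (hS : S.Cd true) (ha : a = 10 ∨ (a = 4 ∧ K = ∅ ∧ ∀ y, S.φ y = 1)) :
    ∃ (R : CM 2) (oR : Fm 2 R) (b : R × ℝ → Y) (ψ : Y → Circle) (h : Df R) (D : R → Circle)
      (l₁ l₂ : R → ℝ) (L : Set Y) (c : ℝ → R) (e₁ e₂ : ℂ → R) (δ' : ℝ) (W : Set ℂ),
      Hf o v Φ M K δ E S.φ oR b ψ h D l₁ l₂ L c e₁ e₂ δ' W := by
  have B := H.bas
  have Cl := H.hcol
  have p3 := Real.pi_gt_three
  have p4 := Real.pi_lt_four
  have a4 : 4 ≤ a := ha.elim (fun e => by linarith) fun e => e.1.ge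
  have at1 := Real.arctan_lt_pi_div_two
  have at2 := Real.neg_pi_div_two_lt_arctan
  have E0 : ∀ z ∈ Xo δ, E (z, 0) ∈ PP Φ M \ K := fun z hz => by
    simpa using H.free z hz 0 (by simp; linarith)
  have c0 : ∀ z ∈ Xo δ, ∀ θ, |θ| < Real.pi → E (z, θ) ∈ col v Φ {E (z, 0)} := fun z hz θ h =>
    colE B.smv Cl hz (n := 0) (by linarith) (by simp; linarith) (by simpa using h) (by simp)
  obtain ⟨R, oR, b, X⟩ := Box46.box Y o v Φ B.ori B.smv B.smΦ fun y h =>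
    B.pos y fun c => h (B.one y c)
  have cR := Hl33.connStmt Box46.trk Y R o v Φ M M' oR b S B X hS
    ⟨⟨_, (E0 0 (.inl ⟨0, by simpa using Cl.pos⟩)).1⟩, H.conn⟩
  have nR : Nonempty R := ⟨cR.nonempty.some⟩
  obtain ⟨F₁, f₁, π₁, T₁⟩ := Hl33.footStmt Box46.trk Y R o v Φ M oR b 1 B X (.inl rfl) nR
  obtain ⟨F₂, f₂, π₂, T₂⟩ := Hl33.footStmt Box46.trk Y R o v Φ M oR b (-1) B X (.inr rfl) nR
  obtain ⟨e₁, h₁, s₁⟩ := Box46.sheet Y R o v Φ oR b δ a E (-1) B.smv B.smΦ X Cl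
    (abs_lt.2 (by push_cast; constructor <;> linarith))
  obtain ⟨e₂, h₂, s₂⟩ := Box46.sheet Y R o v Φ oR b δ a E 0 B.smv B.smΦ X Cl
    (abs_lt.2 (by push_cast; constructor <;> linarith))
  simp only [show ((2 * (-1 : ℤ) + 1 : ℝ)) * Real.pi = -Real.pi by push_cast; ring] at s₁
  simp only [show ((2 * (0 : ℤ) + 1 : ℝ)) * Real.pi = Real.pi by push_cast; ring] at s₂
  have g₁ : ∀ s > (0 : ℝ), |-Real.pi + 2 * Real.arctan s| < Real.pi := fun s hs =>
    abs_lt.2 ⟨by linarith [Real.arctan_pos.2 hs], by linarith [at1 s]⟩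
  have g₂ : ∀ s < (0 : ℝ), |Real.pi + 2 * Real.arctan s| < Real.pi := fun s hs =>
    abs_lt.2 ⟨by linarith [at2 s], by linarith [Real.arctan_lt_zero.2 hs]⟩
  have t₁ : ∀ z ∈ Xo δ, ∀ s > (0 : ℝ), b (e₁ z, s) = E (z, -Real.pi + 2 * Real.arctan s) :=
    fun z hz s hs => s₁ z hz s (by linarith [g₁ s hs])
  have t₂ : ∀ z ∈ Xo δ, ∀ s < (0 : ℝ), b (e₂ z, s) = E (z, Real.pi + 2 * Real.arctan s) :=
    fun z hz s hs => s₂ z hz s (by linarith [g₂ s hs])
  have sg : ∀ z ∈ Xo δ, {E (z, 0)} ⊆ PP Φ M := fun z hz => singleton_subset_iff.2 (E0 z hz).1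
  have q₁ : ∀ z ∈ Xo δ, e₁ z ∈ F₁ ∧ π₁ (e₁ z) = E (z, 0) := fun z hz =>
    (mem_img B T₁ (sg z hz)).1 ((b_col B T₁ (sg z hz) (s := 1) (by simp)).1
      (t₁ z hz 1 one_pos ▸ c0 z hz _ (g₁ 1 one_pos)))
  have q₂ : ∀ z ∈ Xo δ, e₂ z ∈ F₂ ∧ π₂ (e₂ z) = E (z, 0) := fun z hz =>
    (mem_img B T₂ (sg z hz)).1 ((b_col B T₂ (sg z hz) (s := -1) (by simp)).1
      (t₂ z hz (-1) neg_one_lt_zero ▸ c0 z hz _ (g₂ _ neg_one_lt_zero)))
  have q₃ : a = 10 → ∀ z ∈ Xo δ, e₂ z ∈ F₁ \ f₁ '' K := fun e z hz => by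
    have h1 : |2 * Real.pi * (1 : ℤ)| < a := abs_lt.2 (by push_cast; constructor <;> linarith)
    have h2 : |Real.pi + 2 * Real.arctan 1| < a := abs_lt.2 ⟨by linarith [at2 1], by linarith [at1 1]⟩
    have h3 := (mem_img B T₁ sdiff_subset).1 ((b_col B T₁ sdiff_subset (s := 1) (by simp)).1
      (s₂ z hz 1 h2 ▸ colE B.smv Cl hz h2 h1 (abs_lt.2 (by
        push_cast; constructor <;> linarith [at1 1, Real.arctan_pos.2 one_pos])) (H.free z hz 1 h1)))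
    exact ⟨h3.1, fun c => h3.2.2 ((mem_img B T₁ H.sub).1 c).2⟩
  have dj : ∀ z ∈ Xo δ, ∀ w ∈ Xo δ, e₁ z ≠ e₂ w := fun z hz w hw e => by
    have h1 : |-Real.pi + 2 * Real.arctan 0| < a := abs_lt.2 (by simp; constructor <;> linarith)
    have h2 : |Real.pi + 2 * Real.arctan 0| < a := abs_lt.2 (by simp; constructor <;> linarith)
    have h3 := ((Cl.eq (z, _) (w, _) hz h1 hw h2).1 (by rw [← s₁ z hz 0 h1, ← s₂ w hw 0 h2, e])).1
    simp only at h3
    linarith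
  have k₁ : ∀ z ∈ Xo δ, e₁ z ∉ f₁ '' K := fun z hz c =>
    (E0 z hz).2 ((q₁ z hz).2 ▸ ((mem_img B T₁ H.sub).1 c).2)
  have k₂ : ∀ z ∈ Xo δ, e₂ z ∉ f₂ '' K := fun z hz c =>
    (E0 z hz).2 ((q₂ z hz).2 ▸ ((mem_img B T₂ H.sub).1 c).2)
  have k₃ : ∀ z ∈ Xo δ, e₂ z ∉ f₁ '' K := fun z hz => ha.elim (fun e => (q₃ e z hz).2) fun e => by
    simp [e.2.1]
  have d0 := half_pos Cl.pos
  have d1 := half_lt_self Cl.pos
  have xs : Xc (δ / 2) ⊆ Xo δ := Hd34.Xc_sub d1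
  obtain ⟨z₀, r, r0, hD, H3⟩ := Hd34.hd3Stmt δ (δ / 2) d0 d1 Cl.lt
  obtain ⟨o₁, cp₁, -, ⟨σ, hσ⟩, H1⟩ := Hd34.hd1Stmt R e₁ δ (δ / 2) h₁ d0 d1
  obtain ⟨o₂, cp₂, cn₂, -, -⟩ := Hd34.hd1Stmt R e₂ δ (δ / 2) h₂ d0 d1
  obtain ⟨an, rg, -, H1'⟩ := H1 σ hσ
  obtain ⟨dz1, du⟩ := H1' (δ / 2 / 2) (half_pos d0) le_rfl
  obtain ⟨sd, -, -, d0', -⟩ := Hd34.delStmt R _ _ an (half_pos d0)
  generalize del (hA e₁ σ) (δ / 2 / 2) = d at dz1 du sd d0'
  have dn : ∀ x ∉ e₁ '' Xc (δ / 2), ∀ᶠ x' in 𝓝 x, d x' = 1 := fun x hx => by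
    filter_upwards [cp₁.isClosed.isOpen_compl.mem_nhds hx] with x' h'
      using d0' x' fun c => h' (rg (image_subset_range _ _ c))
  have D1 : Metric.closedBall z₀ r ⊆ Xo δ := hD.trans sdiff_subset
  have cK₁ := H.cpt.image_of_continuousOn (cont_f B T₁ H.sub)
  have cK₂ := H.cpt.image_of_continuousOn (cont_f B T₂ H.sub)
  have cD := (isCompact_closedBall z₀ r).image_of_continuousOn ((Hd34.contOn h₁).mono D1)
  have n₁ : e₁ '' Xo δ ⊆ F₁ \ f₁ '' K := by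
    rintro _ ⟨z, hz, rfl⟩
    exact ⟨(q₁ z hz).1, k₁ z hz⟩
  have cH : IsCompact (e₁ '' (Xc (δ / 2) ∪ Metric.closedBall z₀ r)) := image_union _ _ _ ▸ cp₁.union cD
  have sH := image_mono (f := e₁) (union_subset xs D1)
  obtain ⟨ψ, w, um, sw, su, w1, sψ, nr, ev, lc⟩ := Hat42.hat Box46.trk Lsf39.ext Y R o v Φ M M' oR b
    S F₁ f₁ π₁ (f₁ '' K ∪ e₁ '' (Xc (δ / 2) ∪ Metric.closedBall z₀ r) ∪ e₂ '' Xc (δ / 2)) d B X T₁
    ((cK₁.union cH).union cp₂).isClosed (ha.imp (fun e => by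
      have n₂ : e₂ '' Xo δ ⊆ (F₁ \ f₁ '' K) \ e₁ '' (Xc (δ / 2) ∪ Metric.closedBall z₀ r) := by
        rintro _ ⟨z, hz, rfl⟩
        exact ⟨q₃ e z hz, fun ⟨z', h', e'⟩ => dj z' (union_subset xs D1 h') z hz e'⟩
      refine ⟨union_subset (union_subset (fun x hx => ((mem_img B T₁ H.sub).1 hx).1)
        fun x hx => (n₁ (sH hx)).1) fun x hx => (n₂ (image_mono xs hx)).1.1, ?_⟩
      rw [← Set.sdiff_sdiff, ← Set.sdiff_sdiff]
      exact rem (rem (conn_up B T₁ H.sub H.conn') o₁ cH.isClosed sH n₁ (H3 R e₁ h₁).2) o₂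
        cp₂.isClosed (image_mono xs) n₂ cn₂) fun e => e.2.2) sd
    (mem_nhdsSet_iff_forall.2 fun x hx => dn x fun c => hx (n₁ (image_mono xs c)).1)
  have oneK : ∀ y ∈ col v Φ K, ∀ᶠ z in 𝓝 y, ψ z = 1 := fun y hy => by
    have h1 := (col_iff B T₁ H.sub).1 hy
    have h2 := T₁.opc.mem_nhds h1.1
    have h3 := T₁.sm.continuousOn.continuousAt h2
    filter_upwards [h2, h3 (mem_nhdsSet_iff_forall.1 lc _ (.inl (.inl h1.2))),
      h3 (dn _ fun c => (n₁ (image_mono xs c)).2 h1.2)] with z z1 z2 z3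
    exact (z2 z z1 rfl).trans z3
  have i1 : (1 : ℝ) ∈ Ioc (0 : ℝ) 7 := ⟨one_pos, by norm_num⟩
  have i5 : (5 : ℝ) ∈ Ioc (0 : ℝ) 7 := ⟨by norm_num, by norm_num⟩
  have wC := w1.self_of_nhdsSet
  obtain ⟨h, A, B', δ₁, ε₁, kk, ps, hd, ε0, ε1, sD, ⟨l₁, sl₁, m₁⟩, ⟨l₂, sl₂, m₂⟩, j₁, j₂⟩ :=
    surf R oR (f₁ '' K) (f₂ '' K) e₁ e₂ δ (δ / 2) (δ / 2 / 2) (d * w) um X.ori cR.isPreconnected
    cK₁.isClosed cK₂.isClosed
    (compl_eq_univ_sdiff _ ▸ rem cR.isPreconnected T₁.op cK₁.isClosed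
      (fun x hx => ((mem_img B T₁ H.sub).1 hx).1) (subset_univ _) (conn_up B T₁ H.sub H.conn'))
    (compl_eq_univ_sdiff _ ▸ rem cR.isPreconnected T₂.op cK₂.isClosed
      (fun x hx => ((mem_img B T₂ H.sub).1 hx).1) (subset_univ _) (conn_up B T₂ H.sub H.conn'))
    h₁ h₂ d0 d1 (half_pos d0) le_rfl (sd.mul sw) su
    (fun x hx => (ev x 1 i1).1.symm.trans
      (oneK _ ((b_col B T₁ H.sub (by simp)).2 hx)).self_of_nhds)
    (fun x hx => (ev x 1 i1).2.symm.trans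
      (oneK _ ((b_col B T₂ H.sub (by simp)).2 hx)).self_of_nhds) fun z hz => by
      refine ⟨k₁ z (xs hz), k₂ z (xs hz), ?_, ?_⟩
      · rw [Pi.mul_apply, wC _ (.inl (.inr ⟨z, .inl hz, rfl⟩)), mul_one, dz1 z (xs hz)]
      · have h1 := (col_iff B T₁ (sg z (xs hz))).1 (c0 z (xs hz) _ (g₂ _ neg_one_lt_zero))
        rw [← (ev _ 1 i1).2, t₂ z (xs hz) _ neg_one_lt_zero, ← dz1 z (xs hz)]
        refine lc.self_of_nhdsSet _ (.inl (.inr ⟨z, .inl hz, rfl⟩)) _ h1.1 ?_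
        rw [image_singleton, mem_singleton_iff, ← (q₁ z (xs hz)).2, T₁.left _ (q₁ z (xs hz)).1] at h1
        exact h1.2
  have sL : K ∪ (fun z => E (z, 0)) '' Metric.closedBall z₀ r ⊆ PP Φ M :=
    union_subset H.sub (image_subset_iff.2 fun z hz => (E0 z (D1 hz)).1)
  have iL : f₁ '' (K ∪ (fun z => E (z, 0)) '' Metric.closedBall z₀ r) =
      f₁ '' K ∪ e₁ '' Metric.closedBall z₀ r := by
    rw [image_union, image_image]
    exact congrArg _ (image_congr fun z hz => by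
      rw [← (q₁ z (D1 hz)).2, T₁.left _ (q₁ z (D1 hz)).1])
  have lt : ∀ z ∈ Xc (δ / 2), e₁ z ∉ e₁ '' Metric.closedBall z₀ r := fun z hz ⟨z', h', e'⟩ =>
    (hD h').2 (Hd34.Xc_lat ((h₁.eq z (xs hz) z' (D1 h')).1 e'.symm) hz)
  have tI : ∀ t : ℝ, (t * Complex.I : ℂ) ∈ Xc (δ / 2) := fun t => .inl ⟨0, by simpa using d0.le⟩
  have xo : Xo (δ / 2) ⊆ Xc (δ / 2) := fun _ hz =>
    hz.imp (fun ⟨n, hn⟩ => ⟨n, hn.le⟩) fun ⟨n, hn⟩ => ⟨n, hn.le⟩
  refine ⟨R, oR, b, ψ, h, del A ε₁, l₁, l₂, K ∪ (fun z => E (z, 0)) '' Metric.closedBall z₀ r,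
    fun t : ℝ => e₁ (t * Complex.I), e₁, e₂, δ / 2, Metric.ball z₀ r, X, cR.isPreconnected, kk, ps,
    ⟨A, B', δ₁, ε₁, hd, ε0, ε1, rfl⟩, sD, sl₁, sl₂, sψ, nr,
    fun x s hs => ⟨(ev x s hs).1.trans (m₁ x), (ev x s hs).2.trans (m₂ x)⟩,
    H.cpt.union ((isCompact_closedBall z₀ r).image_of_continuousOn fun z hz => ?_), sL,
    subset_union_left, conn_dn B T₁ sL ?_, fun x hx => ?_, ⟨du.1, du.2.1, ?_⟩, fun t => ?_,
    ⟨d0, d1.trans Cl.lt, fun z hz => h₂.ld z (xs (xo hz)),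
      fun z hz w hw => h₂.eq z (xs (xo hz)) w (xs (xo hw))⟩, fun z hz => ⟨?_, fun c => ?_⟩, oneK,
    fun x s hs c => mem_nhdsSet_iff_forall.1 j₁ x ((b_col B T₁ H.sub (by simpa using hs)).1 c),
    fun x s hs c => mem_nhdsSet_iff_forall.1 j₂ x ((b_col B T₂ H.sub (by simpa using hs)).1 c),
    Metric.isOpen_ball, Metric.nonempty_ball.2 r0, Metric.ball_subset_closedBall.trans D1,
    fun z hz => .inr ⟨z, Metric.ball_subset_closedBall hz, rfl⟩,
    fun z hz => t₁ z (D1 (Metric.ball_subset_closedBall hz)),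
    fun z hz => t₂ z (D1 (Metric.ball_subset_closedBall hz))⟩
  · exact ((Cl.ld (z, 0) (D1 hz) (by simp; linarith)).contMDiffAt.continuousAt.comp
      (f := fun z : ℂ => (z, (0 : ℝ))) (by fun_prop)).continuousWithinAt
  · rw [iL, ← Set.sdiff_sdiff]
    exact rem (conn_up B T₁ H.sub H.conn') o₁ cD.isClosed (image_mono D1) n₁ (H3 R e₁ h₁).1
  · rw [b_col B T₁ sL (by norm_num), iL] at hx
    filter_upwards [mem_nhdsSet_iff_forall.1 w1 x
      (.inl (hx.imp id fun c => image_mono subset_union_right c)), dn x fun ⟨z, hz, e⟩ =>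
        hx.elim (k₁ z (xs hz) <| e ▸ ·) (lt z hz <| e ▸ ·)] with x' h1 h2
    rw [(ev x' 5 i5).1, h1, h2, mul_one]
  · obtain ⟨l, l1, l2, l3⟩ := du.2.2
    refine ⟨l, l1, fun t => ?_, l3⟩
    refine (ev _ 5 i5).1.trans ?_
    rw [wC _ (.inl (.inr ⟨_, .inl (tI t), rfl⟩)), mul_one]
    exact l2 t
  · rw [b_col B T₁ sdiff_subset (by norm_num), mem_img B T₁ sdiff_subset]
    refine ⟨(q₁ _ (xs (tI t))).1, T₁.maps' (q₁ _ (xs (tI t))).1, fun c => ?_⟩
    have h1 := (mem_img B T₁ sL).2 ⟨(q₁ _ (xs (tI t))).1, c⟩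
    rw [iL] at h1
    exact h1.elim (k₁ _ (xs (tI t))) (lt _ (tI t))
  · rw [(ev _ 5 i5).1, wC _ (.inr ⟨z, xo hz, rfl⟩), mul_one]
    exact (dn _ fun ⟨z', h', e'⟩ => dj z' (xs h') z (xs (xo hz)) e').self_of_nhds
  · rw [b_col B T₁ sL (by norm_num), iL] at c
    exact c.elim (k₃ z (xs (xo hz))) fun ⟨z', h', e'⟩ => dj z' (D1 h') z (xs (xo hz)) e'

end Crest.Agent.X212.Stp42
end
end

-- ▼ part X212/Stp42/Main

/-!
# X212/Stp42/Main (helper42): STEP, one stage of the hierarchy is one regluing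
-/

set_option autoImplicit false
set_option linter.unusedSectionVars false

open Set Filter Topology Function
open scoped ContDiff Manifold
open Crest.Agent.R208.F Crest.Agent.X212.Dr59 Crest.Agent.X212.Int54 Crest.Agent.X212.Cyl58
open Crest.Agent.X212.Sep15 (EE IR CM Box slab px Rg mem_slab slab_mono isClosed_slab)
open Crest.Agent.X212.Bb31 (Fm Df Pos)
open Crest.Agent.X212.Flo26 (SmV fl)
open Crest.Agent.X212.Line51 (CSm)
open Crest.Agent.X212.Hel40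

noncomputable section

namespace Crest.Agent.X212.Stp42

variable {Y : CM 3} {R : CM 2} {o : Fm 3 Y} {v : Vf Y} {Φ : Y → Circle} {oR : Fm 2 R}
  {b : R × ℝ → Y}

theorem dl_b (hb : Box b) {G : Y → Circle} {p : R × ℝ} (hG : CSm (𝓡 3) G (b p)) {κ : ℝ → ℝ}
    (hκ : ContDiff ℝ ∞ κ) (e : ∀ᶠ q in 𝓝 p, G (b q) = Circle.exp (κ q.2)) (w : EE 2 × ℝ) :
    dl (𝓡 3) G (b p) (mf (IR 2) (𝓡 3) b p w) = deriv κ p.2 * w.2 := by
  have h1 : ContMDiffAt (IR 2) 𝓘(ℝ, ℝ) ∞ (κ ∘ Prod.snd : R × ℝ → ℝ) p :=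
    hκ.contMDiff.contMDiffAt.comp p contMDiffAt_snd
  rw [← dl_comp hG ((hb.contMDiff p).mdifferentiableAt (by simp)),
    dl_congr (g := G ∘ b) (h := fun q => Circle.exp ((κ ∘ Prod.snd) q)) e, dl_exp h1,
    mf_comp (hκ.contMDiff.mdifferentiableAt (by simp)) mdifferentiableAt_snd, mf_snd, mf_eq_fderiv]
  exact fderiv_eq_deriv_mul

/-- a function of the height has a differential proportional to that of `Φ` -/
theorem dl_vert (X : Bx o v Φ oR b) (hΦ : SC Φ) {G : Y → Circle} {p : R × ℝ}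
    (hG : CSm (𝓡 3) G (b p)) {κ : ℝ → ℝ} (hκ : ContDiff ℝ ∞ κ)
    (e : ∀ᶠ q in 𝓝 p, G (b q) = Circle.exp (κ q.2)) :
    ∃ c : ℝ, dl (𝓡 3) G (b p) = c • dl (𝓡 3) Φ (b p) := by
  have h1 := dl_b X.box (hΦ _) contDiff_cayA (.of_forall X.ang) (p := p)
  rw [(((Real.hasDerivAt_arctan p.2).const_mul 2).const_add Real.pi).deriv] at h1
  refine ⟨deriv κ p.2 * (1 + p.2 ^ 2) / 2, LinearMap.ext fun u => ?_⟩
  obtain ⟨w, rfl⟩ : ∃ w, mf (IR 2) (𝓡 3) b p w = u :=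
    ((X.box.loc p).mfderivToContinuousLinearEquiv (by simp)).surjective u
  rw [LinearMap.smul_apply, dl_b X.box hG hκ e, h1, smul_eq_mul]
  field_simp

theorem loc_const {X : Type*} [TopologicalSpace X] {l : X → ℝ} (hl : Continuous l) {x : X}
    (h : ∀ᶠ x' in 𝓝 x, Circle.exp (l x') = 1) : ∀ᶠ x' in 𝓝 x, l x' = l x := by
  filter_upwards [h, (hl.sub (continuous_const (y := l x))).abs.continuousAt.eventually
    (gt_mem_nhds (a := 2 * Real.pi) (by simpa using Real.pi_pos))] with x' h1 h2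
  exact exp_inj (h1.trans h.self_of_nhds.symm) h2

theorem lat_eq {z w : ℂ} (h : Lat z w) (hd : dist z w < 1) : z = w := by
  obtain ⟨m, n, rfl⟩ := h
  rw [dist_comm, dist_eq_norm] at hd
  have h1 := (Complex.abs_re_le_norm _).trans_lt hd
  have h2 := (Complex.abs_im_le_norm _).trans_lt hd
  simp only [Complex.sub_re, Complex.add_re, Complex.intCast_re, Complex.mul_re, Complex.I_re,
    Complex.intCast_im, Complex.I_im, Complex.sub_im, Complex.add_im, Complex.mul_im] at h1 h2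
  have h3 : m = 0 := Hd34.int_zero (by linarith [(abs_lt.1 h1).1]) (by linarith [(abs_lt.1 h1).2])
  have h4 : n = 0 := Hd34.int_zero (by linarith [(abs_lt.1 h2).1]) (by linarith [(abs_lt.1 h2).2])
  simp [h3, h4]

/-- **STEP** -/
theorem step (surf : SurfStmt) (psi : PsiStmt) (band : BandStmt) : StepStmt := by
  intro Y o v Φ M M' U K δ a E S n H hS hi ha
  obtain ⟨R, oR, b, ψ, h, D, l₁, l₂, L, c, e₁, e₂, δ', W, P⟩ := half surf S H hS ha
  have B := H.bas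
  have X := P.bx
  have Cl := H.hcol
  have a4 : Real.pi < a := Real.pi_lt_four.trans_le (ha.elim (fun e => by linarith) fun e => e.1.ge)
  obtain ⟨Y', b', ⟨G⟩⟩ := Sep15.rgStmt Y R b h X.box
  obtain ⟨o', v', Φ₁, B', X', -, r1, r2, r3, r4, r5⟩ :=
    Rgl52.regl Box46.trk Y Y' R b b' h G o oR v Φ M B X P.pos
  have src := Rgl52.src_iff G X.rg X.ang
  have Mb : ∀ y ∈ M, ∀ s, y ∉ slab b s := fun y hy s ⟨p, _, e⟩ =>
    cay_ne_one _ ((X.ang p).symm.trans (e ▸ B.one y hy))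
  have sM : M' ⊆ M := fun y hy => ((S.meq' y).1 hy).1
  have Ms : M ⊆ G.φ.source := fun y hy => G.src ▸ Mb y hy _
  have Cs : ∀ {K'}, col v Φ K' ⊆ G.φ.source := fun hy => (src _).2 (col_ne B.smv hy)
  have Ps : PP Φ M ⊆ G.φ.source := fun y hy => Cs (mem_col B.smv hy hy.1)
  have inj := G.φ.toPartialEquiv.injOn
  have sφ : ∀ y ∈ G.φ.source, ContMDiffAt (𝓡 3) (𝓡 3) ∞ G.φ y := fun y hy => Hl33.sm_at hy
  obtain ⟨tr1, tr2⟩ := Hl33.transStmt Y Y' v v' G.φ (slab b (Icc (-1) 1))ᶜ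
    (isClosed_slab X.box isCompact_Icc).isOpen_compl
    (fun y hy => G.mem_of_notMem (s := Icc (-1) 1) ⟨by norm_num, by norm_num⟩ hy) r3
  obtain ⟨S', hS', nS⟩ := tr1 M M' S (fun y hy => Mb y hy _) hS
  obtain ⟨ψ', χ, sψ, sχ, p1, p2, p3⟩ := psi Y Y' R b b' h G ψ D l₁ l₂
    (P.smψ.mono fun y hy => (src y).1 (G.src ▸ hy)) P.smD P.sm₁ P.sm₂ P.eq
  have cl : ∀ {K'}, K' ⊆ PP Φ M → ∀ x, b' (h x, 5) ∈ col v' Φ₁ (G.φ '' K') ↔
      b (x, 5) ∈ col v Φ K' := fun hK x => by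
    rw [r5 _ hK, show b' (h x, 5) = G.φ (b (x, 5)) from (G.hi (x, 5) (by norm_num)).symm]
    exact inj.mem_image_iff Cs (G.b_mem.2 (by norm_num))
  have dL : PP Φ₁ (G.φ '' M) \ G.φ '' L = G.φ '' (PP Φ M \ L) := by
    rw [r4, (inj.mono Ps).image_sdiff_subset P.sub]
  have i5 : (5 : ℝ) ∈ Ioc (0 : ℝ) 7 := ⟨by norm_num, by norm_num⟩
  obtain ⟨k₀, hk⟩ := band Y' R o' v' Φ₁ (G.φ '' M) (G.φ '' M') (G.φ '' L)
    (slab b' (Icc (-4) 4) ∪ col v' Φ₁ (G.φ '' L)) oR b' S' ψ' (fun x => ψ (b (h.symm x, 5)))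
    (h ∘ c) (h ∘ e₂) δ' B' X' hS'
    (P.cpt.image_of_continuousOn fun y hy => (sφ y (Ps (P.sub hy))).continuousAt.continuousWithinAt)
    (r4 ▸ image_mono P.sub)
    (r4 ▸ H.conn.image _ fun y hy => (sφ y (Ps hy)).continuousAt.continuousWithinAt)
    (dL ▸ P.cn.image _ fun y hy => (sφ y (Ps hy.1)).continuousAt.continuousWithinAt) P.conn sψ
    (mem_nhdsSet_iff_forall.2 (by
      rintro _ ⟨y, hy, rfl⟩
      have t : Tendsto G.φ.symm (𝓝 (G.φ y)) (𝓝 y) := by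
        have := (Hl33.sm_symm (Ms hy)).continuousAt.tendsto
        rwa [show G.φ.symm (G.φ y) = y from G.φ.left_inv (Ms hy)] at this
      filter_upwards [G.φ.open_target.mem_nhds (G.φ.map_source (Ms hy)),
        t (mem_nhdsSet_iff_forall.1 nS y hy), t (mem_nhdsSet_iff_forall.1 P.near y hy),
        t ((isClosed_slab X.box (isCompact_Icc (a := -4) (b := 4))).isOpen_compl.mem_nhds
          (Mb y hy _))] with z z1 z2 z3 z4
      rw [← show G.φ (G.φ.symm z) = z from G.φ.right_inv z1]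
      exact ((p1 _ fun c => z4 (slab_mono b Ioo_subset_Icc_self c)).trans z3).trans z2.symm))
    (fun x s hs => by
      obtain ⟨x, rfl⟩ : ∃ y, h y = x := h.surjective x
      have s0 : 0 < s := by linarith [hs.1]
      rw [show b' (h x, s) = G.φ (b (x, s)) from (G.hi (x, s) s0).symm,
        p1 _ fun c => ((mem_slab X.box).1 c).2.not_ge hs.1, h.symm_apply_apply, (P.eq x 5 i5).1,
        (P.eq x s ⟨s0, by linarith [hs.2]⟩).1])
    (fun x hx => by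
      obtain ⟨x, rfl⟩ : ∃ y, h y = x := h.surjective x
      exact h.symm.continuous.continuousAt ((h.symm_apply_apply x).symm ▸ P.one x ((cl P.sub x).1 hx)))
    ⟨h.continuous.comp P.dual.1, fun t => congrArg h (P.dual.2.1 t), by
      simpa only [comp_apply, h.symm_apply_apply] using P.dual.2.2⟩
    (fun t => dL ▸ (cl sdiff_subset _).2 (P.dcol t))
    ⟨P.hdl.pos, P.hdl.lt, fun z hz => ld_comp (h.isLocalDiffeomorph _) (P.hdl.ld z hz),
      fun z hz w hw => h.injective.eq_iff.trans (P.hdl.eq z hz w hw)⟩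
    (fun z hz => ⟨by simpa only [comp_apply, h.symm_apply_apply] using (P.free z hz).1,
      fun c => (P.free z hz).2 ((cl P.sub _).1 c)⟩) Subset.rfl
  obtain ⟨K', E', H'⟩ := hk (max k₀ 1) (le_max_left _ _)
  have k0 : 0 < max k₀ 1 := lt_max_of_lt_right one_pos
  generalize max k₀ 1 = k at H' k0
  have ps : ∀ {K'}, K' ⊆ PP Φ M → ∀ y ∈ col v Φ K',
      0 < dl (𝓡 3) (ψ' * Φ₁ ^ k) (G.φ y) (mf (𝓡 3) (𝓡 3) G.φ y (v y)) := fun hK y hy => by
    obtain ⟨g, g0, g1⟩ : ∃ g > (0 : ℝ), mf (𝓡 3) (𝓡 3) G.φ y (v y) = g • Box46.vv v' (G.φ y) :=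
      r2 y (Cs hy)
    rw [g1, map_smul]
    exact mul_pos g0 (H'.bas.pos _ fun c => B.col_notMem hK hy
      (sM ((inj.mem_image_iff (sM.trans Ms) (Cs hy)).1 c)))
  obtain ⟨z₀, z0⟩ := P.neW
  have cE : ∀ p : ℂ × ℝ, p.1 ∈ W → |p.2| < Real.pi → E p ∈ col v Φ L := fun p h1 h2 =>
    colE B.smv Cl (P.subW h1) (n := 0) (h2.trans a4) (by simpa using Real.pi_pos.trans a4)
      (by simpa using h2) (by simpa using P.memW _ h1)
  refine ⟨Y', o', v', _, _, _, K', δ', E', R, oR, b, b', h, G, H', tr2 n M'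
    (fun y hy => Mb y (sM hy) _) hi, X.ori, P.conn, P.kk, B.smΦ, H'.bas.smΦ, X.ang, ?_,
    (slab_mono b' (Icc_subset_Icc (by norm_num) (by norm_num))).trans subset_union_left,
    fun y hy hn => ?_, W ∩ Metric.ball z₀ (1 / 2), G.φ ∘ E, h ∘ e₁, e₂,
    P.opW.inter Metric.isOpen_ball, ⟨z₀, z0, Metric.mem_ball_self one_half_pos⟩,
    fun p h1 h2 => ld_comp (Orx52.ldp G.φ (Cs (cE p h1.1 h2))) (Cl.ld p (P.subW h1.1) (h2.trans a4)),
    fun p hp q hq e => ?_, fun z hz θ hθ => ?_, fun z hz θ hθ => ?_, fun z hz c => ?_,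
    fun p h1 h2 => .inr (r5 L P.sub ▸ mem_image_of_mem _ (cE p h1.1 h2)), fun p h1 h2 => ?_⟩
  · obtain ⟨A, B₀, δ₁, ε₁, q1, q2, q3, q4⟩ := P.hd
    refine ⟨k, A, B₀, δ₁, ε₁, k0, q1, q2, q3, fun p hp => ?_⟩
    rw [Pi.mul_apply, Pi.pow_apply, p2 p hp.le, X'.ang, q4, mul_comm]
  · have hK : y ∈ col v Φ K := (hy.elim (H.ctl ·) .inl).resolve_left fun c => by
      obtain ⟨p, rfl⟩ : y ∈ range b := X.rg.ge fun e => by
        rw [Mid, mem_ofPred, e] at c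
        exact c.not_ge zero_le_one
      rw [Mid, mem_ofPred, X.ang] at c
      exact hn ((mem_slab X.box).2 (cay_re_neg.1 c))
    have s1 : CSm (𝓡 3) (ψ' ∘ G.φ) y := (sψ _).comp y (sφ y (Cs hK))
    obtain ⟨c, hc⟩ : ∃ c : ℝ, dl (𝓡 3) (ψ' ∘ G.φ) y = c • dl (𝓡 3) Φ y := by
      by_cases c : y ∈ slab b (Icc (-4) 4)
      · obtain ⟨⟨x, s⟩, ⟨-, hs⟩, rfl⟩ := c
        have o1 := (X.box.continuous.comp (.prodMk_left s)).continuousAt (P.oneK _ hK)
        rcases (G.b_mem.1 (Cs hK)).lt_or_gt with s0 | s0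
        · have o2 := P.one₂ x s s0 hK
          have o3 : ∀ᶠ x' in 𝓝 x, l₂ x' = l₂ x := loc_const P.sm₂.continuous (by
            filter_upwards [o1, o2] with x' h1 h2
            have := (P.eq x' (-s) ⟨neg_pos.2 s0, by linarith [hs.1]⟩).2
            rw [neg_neg, h2, one_mul] at this
            exact this.symm.trans h1)
          refine dl_vert X B.smΦ s1 (κ := fun s => χ (-s) * l₂ x)
            ((sχ.comp contDiff_neg).mul contDiff_const) ?_
          filter_upwards [continuousAt_fst (p := (x, s)) o2, continuousAt_fst (p := (x, s)) o3,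
            continuousAt_snd (p := (x, s)) (Ioo_mem_nhds (a := -7) (by linarith [hs.1]) s0)]
            with q h1 h2 h3
          have := (p3 q.1 (-q.2) ⟨neg_pos.2 h3.2, by linarith [h3.1]⟩).2
          rw [neg_neg, show D q.1 = 1 from h1, show l₂ q.1 = l₂ x from h2, one_mul] at this
          exact (congrArg ψ' (G.lo q h3.2)).trans this
        · have o2 := P.one₁ x s s0 hK
          have o3 : ∀ᶠ x' in 𝓝 x, l₁ x' = l₁ x := loc_const P.sm₁.continuous (by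
            filter_upwards [o1, o2] with x' h1 h2
            have := (P.eq x' s ⟨s0, by linarith [hs.2]⟩).1
            rw [h2, one_mul] at this
            exact this.symm.trans h1)
          refine dl_vert X B.smΦ s1 (κ := fun s => χ s * l₁ x) (sχ.mul contDiff_const) ?_
          filter_upwards [continuousAt_fst (p := (x, s)) o2, continuousAt_fst (p := (x, s)) o3,
            continuousAt_snd (p := (x, s)) (Ioo_mem_nhds (b := 7) s0 (by linarith [hs.2]))]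
            with q h1 h2 h3
          have := (p3 q.1 q.2 ⟨h3.1, h3.2.le⟩).1
          rw [show D (h q.1) = 1 from h1, show l₁ q.1 = l₁ x from h2, one_mul] at this
          exact (congrArg ψ' (G.hi q h3.1)).trans this
      · refine ⟨0, (dl_of_const (c := 1) ?_).trans (zero_smul _ _).symm⟩
        filter_upwards [P.oneK y hK, (isClosed_slab X.box isCompact_Icc).isOpen_compl.mem_nhds c]
          with z z1 z2
        exact (p1 z fun c => z2 (slab_mono b Ioo_subset_Icc_self c)).trans z1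
    have e : dl (𝓡 3) ((ψ' * Φ₁ ^ k) ∘ G.φ) y = (c + k) • dl (𝓡 3) Φ y := by
      rw [add_smul, ← hc, ← dl_pow (B.smΦ y), ← dl_mul s1 ((show CSm (𝓡 3) Φ y from B.smΦ y).pow k)]
      refine dl_congr ?_
      filter_upwards [G.φ.open_source.mem_nhds (Cs hK)] with z hz
      simp only [comp_apply, Pi.mul_apply, Pi.pow_apply, r1 z hz]
    refine ⟨.inr (r5 L P.sub ▸ mem_image_of_mem _ (col_mono P.KL hK)), c + k, ?_, e⟩
    have h1 := (ps H.sub y hK).trans_eq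
      (dl_comp (H'.bas.smΦ _) ((sφ y (Cs hK)).mdifferentiableAt (by simp)) (v y)).symm
    rw [e] at h1
    exact pos_of_mul_pos_left h1 (B.nn y)
  · have h1 := (Cl.eq p q (P.subW hp.1.1) (hp.2.trans a4) (P.subW hq.1.1) (hq.2.trans a4)).1
      (inj (Cs (cE p hp.1.1 hp.2)) (Cs (cE q hq.1.1 hq.2)) e)
    refine Prod.ext (lat_eq h1.2 ((dist_triangle_right _ _ z₀).trans_lt ?_)) h1.1
    linarith [Metric.mem_ball.1 hp.1.2, Metric.mem_ball.1 hq.1.2]
  · have h1 : 0 < Real.tan ((θ + Real.pi) / 2) :=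
      Real.tan_pos_of_pos_of_lt_pi_div_two (by linarith [hθ.1]) (by linarith [hθ.2])
    refine Eq.trans (congrArg G.φ ?_) (G.hi (e₁ z, Real.tan ((θ + Real.pi) / 2)) h1)
    rw [P.lo z hz.1 _ h1, Real.arctan_tan (by linarith [hθ.1, Real.pi_pos]) (by linarith [hθ.2])]
    congr 2
    ring
  · have h1 : Real.tan ((θ - Real.pi) / 2) < 0 :=
      Real.tan_neg_of_neg_of_pi_div_two_lt (by linarith [hθ.2]) (by linarith [hθ.1])
    refine Eq.trans (congrArg G.φ ?_) (G.lo (e₂ z, Real.tan ((θ - Real.pi) / 2)) h1)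
    rw [P.hi z hz.1 _ h1, Real.arctan_tan (by linarith [hθ.1]) (by linarith [hθ.2, Real.pi_pos])]
    congr 2
    ring
  · have h1 := P.sub (P.memW z hz.1)
    exact X'.rg.le c ((r1 _ (Ps h1)).trans h1.1)
  · obtain ⟨g, g0, g1⟩ : ∃ g > (0 : ℝ), mf ICR (𝓡 3) E p (0, 1) = g • Box46.vv v (E p) :=
      Cl.vert p (P.subW h1.1) (h2.trans a4)
    rw [mf_comp ((sφ _ (Cs (cE p h1.1 h2))).mdifferentiableAt (by simp))
      ((Cl.ld p (P.subW h1.1) (h2.trans a4)).mdifferentiableAt (by simp)),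
      ContinuousLinearMap.comp_apply, g1, map_smul, map_smul]
    exact mul_pos g0 (ps P.sub _ (cE p h1.1 h2))

end Crest.Agent.X212.Stp42
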